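import Vale.Agent.P037.Far
import Mathlib.Data.Fintype.BigOperators

/-!
Averaging over leaves: a matrix without a copy differs from the host in many entries.
-/

namespace Vale.Agent.P037

variable {D : ℕ}

lemma mem_cset {c : Cls D} {x : Line D} : x ∈ cset c ↔ lineCls x = c := by
  simp [cset]

/-- The leaves below the node of depth `j` above `ℓ₀`. -/
noncomputable def fib (j : ℕ) (ℓ₀ : Fin (2 ^ D)) : Finset (Fin (2 ^ D)) :=
  Finset.univ.filter fun ℓ => nodeAt j ℓ = nodeAt j ℓ₀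

lemma globCls_injective : Function.Injective (globCls (D := D)) := by
  rintro (i | ⟨l, α⟩) (i' | ⟨l', α'⟩) h <;> simp [globCls] at h ⊢ <;> exact h

lemma globCls_ne_tr (g : Glob D) (j v : ℕ) (s : Bool) : globCls g ≠ Cls.tr j v s := by
  rcases g with i | ⟨l, α⟩ <;> simp [globCls]

lemma sum_cset_glob (g : Glob D) (φ : Line D → ℝ) :
    ∑ x ∈ cset (globCls g), φ x = ∑ ℓ : Fin (2 ^ D), φ (.inl g, ℓ) := by
  have h : cset (globCls g) = Finset.univ.image fun ℓ : Fin (2 ^ D) => ((.inl g, ℓ) : Line D) := by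
    ext ⟨κ, ℓ⟩
    rcases κ with g' | ⟨j, s⟩
    · rw [mem_cset]; simp [lineCls, globCls_injective.eq_iff, eq_comm]
    · rw [mem_cset]; simp [lineCls, Ne.symm (globCls_ne_tr g _ _ _)]
  rw [h, Finset.sum_image]
  intro a _ b _ e
  simpa using e

lemma card_cset_glob (g : Glob D) : ((cset (globCls g)).card : ℝ) = 2 ^ D := by
  have := sum_cset_glob g (fun _ => (1 : ℝ))
  simpa using this

lemma sum_cset_path (j : Fin (D + 1)) (s : Bool) (ℓ₀ : Fin (2 ^ D)) (φ : Line D → ℝ) :
    ∑ x ∈ cset (pathCls ℓ₀ j.val s), φ x = ∑ ℓ ∈ fib j.val ℓ₀, φ (.inr (j, s), ℓ) := by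
  have h : cset (pathCls ℓ₀ j.val s) =
      (fib j.val ℓ₀).image fun ℓ : Fin (2 ^ D) => ((.inr (j, s), ℓ) : Line D) := by
    ext ⟨κ, ℓ⟩
    rcases κ with g | ⟨j', s'⟩
    · rw [mem_cset]; simp [lineCls, pathCls, fib, globCls_ne_tr]
    · rw [mem_cset]; simp only [lineCls, pathCls, fib, Finset.mem_filter, Finset.mem_univ, true_and,
        Finset.mem_image, Cls.tr.injEq, Prod.mk.injEq, Sum.inr.injEq]
      constructor
      · rintro ⟨h1, h2, rfl⟩
        obtain rfl := Fin.ext h1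
        exact ⟨ℓ, h2, ⟨rfl, rfl⟩, rfl⟩
      · rintro ⟨a, ha, ⟨rfl, rfl⟩, rfl⟩
        exact ⟨rfl, ha, rfl⟩
  rw [h, Finset.sum_image]
  intro a _ b _ e
  simpa using e

lemma card_cset_path (j : Fin (D + 1)) (s : Bool) (ℓ₀ : Fin (2 ^ D)) :
    ((cset (pathCls ℓ₀ j.val s)).card : ℝ) = (fib j.val ℓ₀).card := by
  have := sum_cset_path j s ℓ₀ (fun _ => (1 : ℝ))
  simpa using this

/-- Averaging the averages over the fibres gives the total. -/
lemma fib_average (j : ℕ) (φ : Fin (2 ^ D) → ℝ) :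
    ∑ ℓ₀ : Fin (2 ^ D), (∑ ℓ ∈ fib j ℓ₀, φ ℓ) / (fib j ℓ₀).card = ∑ ℓ, φ ℓ := by
  simp_rw [Finset.sum_div]
  simp only [fib, Finset.sum_filter]
  rw [Finset.sum_comm]
  refine Finset.sum_congr rfl fun ℓ _ => ?_
  rw [← Finset.sum_filter]
  have hne : (Finset.univ.filter fun x : Fin (2 ^ D) => nodeAt j x = nodeAt j ℓ).Nonempty :=
    ⟨ℓ, by simp⟩
  have e : ∀ x ∈ Finset.univ.filter (fun x : Fin (2 ^ D) => nodeAt j ℓ = nodeAt j x),
      φ ℓ / ((Finset.univ.filter fun y : Fin (2 ^ D) => nodeAt j y = nodeAt j x).card : ℝ) =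
      φ ℓ / ((Finset.univ.filter fun y : Fin (2 ^ D) => nodeAt j y = nodeAt j ℓ).card : ℝ) := by
    intro x hx
    rw [(Finset.mem_filter.1 hx).2]
  rw [Finset.sum_congr rfl e, Finset.sum_const, nsmul_eq_mul]
  simp_rw [eq_comm (a := nodeAt j ℓ)]
  have : ((Finset.univ.filter fun y : Fin (2 ^ D) => nodeAt j y = nodeAt j ℓ).card : ℝ) ≠ 0 := by
    exact_mod_cast hne.card_ne_zero
  field_simp

variable (B : Line D → Line D → Bool)

/-- The number of changed entries. -/
noncomputable def numFlips : ℝ := ∑ x : Line D, ∑ y : Line D, flipped B x y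

/-- The changed entries between two kinds of lines. -/
noncomputable def block (κ κ' : Glob D ⊕ (Fin (D + 1) × Bool)) : ℝ :=
  ∑ ℓ : Fin (2 ^ D), ∑ m : Fin (2 ^ D), flipped B (κ, ℓ) (κ', m)

lemma flipped_nonneg (x y : Line D) : 0 ≤ flipped B x y := by
  rcases flipped_cases B x y with h | h <;> rw [h]
  exact zero_le_one

lemma block_nonneg (κ κ' : Glob D ⊕ (Fin (D + 1) × Bool)) : 0 ≤ block B κ κ' :=
  Finset.sum_nonneg fun _ _ => Finset.sum_nonneg fun _ _ => flipped_nonneg B _ _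

lemma numFlips_eq_sum_block : numFlips B = ∑ κ, ∑ κ', block B κ κ' := by
  unfold numFlips block
  rw [Fintype.sum_prod_type]
  refine Finset.sum_congr rfl fun κ _ => ?_
  simp_rw [Fintype.sum_prod_type]
  exact Finset.sum_comm

lemma dens_nonneg (a b : Cls D) : 0 ≤ dens B a b :=
  div_nonneg (Finset.sum_nonneg fun _ _ => Finset.sum_nonneg fun _ _ => flipped_nonneg B _ _)
    (by positivity)

lemma block_le (κ κ' : Glob D ⊕ (Fin (D + 1) × Bool)) : block B κ κ' ≤ numFlips B := by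
  rw [numFlips_eq_sum_block]
  exact (Finset.single_le_sum (fun i _ => block_nonneg B κ i) (Finset.mem_univ κ')).trans
    (Finset.single_le_sum (f := fun i => ∑ κ', block B i κ')
      (fun i _ => Finset.sum_nonneg fun _ _ => block_nonneg B i _) (Finset.mem_univ κ))

lemma dens_glob_glob (g g' : Glob D) :
    dens B (globCls g) (globCls g') = block B (.inl g) (.inl g') / (2 ^ D * 2 ^ D) := by
  rw [dens, avg, card_cset_glob, card_cset_glob, sum_cset_glob]
  simp only [sum_cset_glob, block]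

lemma dens_root (s t : Bool) (ℓ₀ : Fin (2 ^ D)) :
    dens B (pathCls ℓ₀ 0 s) (pathCls ℓ₀ 0 t) =
      block B (.inr (0, s)) (.inr (0, t)) / (2 ^ D * 2 ^ D) := by
  have hf : fib 0 ℓ₀ = Finset.univ := by
    ext ℓ; simp [fib, bitOf_nodeAt_zero]
  show dens B (pathCls ℓ₀ (0 : Fin (D + 1)).val s) (pathCls ℓ₀ (0 : Fin (D + 1)).val t) = _
  rw [dens, avg, card_cset_path, card_cset_path, sum_cset_path]
  simp only [sum_cset_path]
  simp [block, hf]

lemma sum_dens_path_glob (t : Fin (D + 1) × Bool) (g : Glob D) :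
    ∑ ℓ₀ : Fin (2 ^ D), dens B (pathCls ℓ₀ t.1.val t.2) (globCls g) =
      block B (.inr t) (.inl g) / 2 ^ D := by
  have := fib_average t.1.val fun ℓ => ∑ m, flipped B (.inr t, ℓ) (.inl g, m)
  rw [block, ← this, Finset.sum_div]
  refine Finset.sum_congr rfl fun ℓ₀ _ => ?_
  rw [dens, avg, card_cset_path, card_cset_glob, sum_cset_path]
  simp only [sum_cset_glob, div_div]

lemma sum_dens_glob_path (t : Fin (D + 1) × Bool) (g : Glob D) :
    ∑ ℓ₀ : Fin (2 ^ D), dens B (globCls g) (pathCls ℓ₀ t.1.val t.2) =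
      block B (.inl g) (.inr t) / 2 ^ D := by
  have := fib_average t.1.val fun ℓ => ∑ m, flipped B (.inl g, m) (.inr t, ℓ)
  rw [block, Finset.sum_comm, ← this, Finset.sum_div]
  refine Finset.sum_congr rfl fun ℓ₀ _ => ?_
  rw [dens, avg, card_cset_path, card_cset_glob, Finset.sum_comm, sum_cset_path]
  simp only [sum_cset_glob, div_div]
  rw [mul_comm (2 ^ D : ℝ)]

/-- A matrix without a copy differs from the host in at least `4 ^ D / 50000` entries. -/
theorem numFlips_ge (hB : NoCopy B) : (1 / 50000 : ℝ) * (2 ^ D * 2 ^ D) ≤ numFlips B := by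
  by_contra hlt
  rw [not_le] at hlt
  have hS : (0 : ℝ) < 2 ^ D := by positivity
  have small : ∀ v : ℝ, v ≤ numFlips B → v / (2 ^ D * 2 ^ D) ≤ 1 / 50000 := by
    intro v hv
    rw [div_le_iff₀ (by positivity)]
    linarith
  let Φ : Fin (2 ^ D) → ℝ := fun ℓ₀ => ∑ t : Fin (D + 1) × Bool, ∑ g : Glob D,
    (dens B (pathCls ℓ₀ t.1.val t.2) (globCls g) + dens B (globCls g) (pathCls ℓ₀ t.1.val t.2))
  have hΦ : ∑ ℓ₀, Φ ℓ₀ ≤ numFlips B / 2 ^ D := by
    have : ∑ ℓ₀, Φ ℓ₀ =
        (∑ t : Fin (D + 1) × Bool, ∑ g : Glob D,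
          (block B (.inr t) (.inl g) + block B (.inl g) (.inr t))) / 2 ^ D := by
      simp only [Φ]
      rw [Finset.sum_comm, Finset.sum_div]
      refine Finset.sum_congr rfl fun t _ => ?_
      rw [Finset.sum_comm, Finset.sum_div]
      refine Finset.sum_congr rfl fun g _ => ?_
      rw [Finset.sum_add_distrib, sum_dens_path_glob, sum_dens_glob_path, add_div]
    rw [this, div_le_div_iff_of_pos_right hS, numFlips_eq_sum_block, Fintype.sum_sum_type,
      Finset.sum_congr rfl (fun g _ => Fintype.sum_sum_type (fun κ' => block B (.inl g) κ')),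
      Finset.sum_congr rfl (fun t _ => Fintype.sum_sum_type (fun κ' => block B (.inr t) κ'))]
    simp only [Finset.sum_add_distrib]
    have e := Finset.sum_comm (s := (Finset.univ : Finset (Fin (D + 1) × Bool)))
      (t := (Finset.univ : Finset (Glob D))) (f := fun t g => block B (.inl g) (.inr t))
    rw [e]
    have n1 : (0 : ℝ) ≤ ∑ g : Glob D, ∑ g' : Glob D, block B (.inl g) (.inl g') :=
      Finset.sum_nonneg fun _ _ => Finset.sum_nonneg fun _ _ => block_nonneg B _ _
    have n2 : (0 : ℝ) ≤ ∑ t : Fin (D + 1) × Bool, ∑ t' : Fin (D + 1) × Bool,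
        block B (.inr t) (.inr t') :=
      Finset.sum_nonneg fun _ _ => Finset.sum_nonneg fun _ _ => block_nonneg B _ _
    linarith
  obtain ⟨ℓ₀, -, hℓ⟩ := Finset.exists_le_of_sum_le (f := Φ)
    (g := fun _ => numFlips B / (2 ^ D * 2 ^ D)) (s := (Finset.univ : Finset (Fin (2 ^ D))))
    ⟨⟨0, by positivity⟩, Finset.mem_univ _⟩
    (hΦ.trans_eq (by
      simp only [Finset.sum_const, Finset.card_univ, Fintype.card_fin, nsmul_eq_mul]
      push_cast
      field_simp))
  have term : ∀ (t : Fin (D + 1) × Bool) (g : Glob D),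
      dens B (pathCls ℓ₀ t.1.val t.2) (globCls g) + dens B (globCls g) (pathCls ℓ₀ t.1.val t.2)
        ≤ 1 / 50000 := by
    intro t g
    refine le_trans ?_ (hℓ.trans (small _ le_rfl))
    exact le_trans (Finset.single_le_sum
      (f := fun g => dens B (pathCls ℓ₀ t.1.val t.2) (globCls g) +
        dens B (globCls g) (pathCls ℓ₀ t.1.val t.2))
      (fun _ _ => add_nonneg (dens_nonneg B _ _) (dens_nonneg B _ _)) (Finset.mem_univ g))
      (Finset.single_le_sum
      (f := fun t : Fin (D + 1) × Bool => ∑ g : Glob D,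
        (dens B (pathCls ℓ₀ t.1.val t.2) (globCls g) +
          dens B (globCls g) (pathCls ℓ₀ t.1.val t.2)))
      (fun _ _ => Finset.sum_nonneg fun _ _ => add_nonneg (dens_nonneg B _ _) (dens_nonneg B _ _))
      (Finset.mem_univ t))
  have hG : Good B ℓ₀ := by
    refine ⟨fun g g' => ?_, fun j hj s g => ?_, fun j hj s g => ?_, fun s t => ?_⟩
    · rw [dens_glob_glob]; exact small _ (block_le B _ _)
    · exact (le_add_of_nonneg_right (dens_nonneg B _ _)).trans (term (⟨j, by omega⟩, s) g)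
    · exact (le_add_of_nonneg_left (dens_nonneg B _ _)).trans (term (⟨j, by omega⟩, s) g)
    · rw [dens_root]; exact small _ (block_le B _ _)
  exact hG.contra hB

end Vale.Agent.P037
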