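import Vale.Agent.P037.Defs
import Vale.Agent.P037.Average
import Mathlib.Analysis.SpecialFunctions.Pow.Real
import Mathlib.Analysis.SpecificLimits.Normed

/-!
The host as a matrix indexed by `Fin n`, and the choice of parameters.
-/

namespace Vale.Agent.P037

open scoped BigOperators

variable {D : ℕ}

lemma line_of_leafCls {x : Line D} {v : ℕ} {s : Bool} (h : lineCls x = Cls.tr D v s) :
    x = (.inr (Fin.last D, s), x.2) ∧ x.2.val = v := by
  obtain ⟨κ, ℓ⟩ := x
  rcases κ with g | ⟨j, s'⟩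
  · exact absurd h (globCls_ne_tr g _ _ _)
  · simp only [lineCls, Cls.tr.injEq] at h
    obtain ⟨h1, h2, rfl⟩ := h
    have hj : j = Fin.last D := Fin.ext h1
    subst hj
    exact ⟨rfl, by simpa [nodeAt] using h2⟩

lemma card_line_le (D : ℕ) :
    (Fintype.card (Line D) : ℝ) ≤ 120 * ((D : ℝ) + 1) ^ 2 * 2 ^ D := by
  simp only [Fintype.card_prod, Fintype.card_sum, Fintype.card_fin, Fintype.card_bool]
  push_cast
  refine mul_le_mul_of_nonneg_right ?_ (by positivity)
  have : (0 : ℝ) ≤ (D : ℝ) := Nat.cast_nonneg D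
  nlinarith

lemma le_card_line (D : ℕ) : 2 ^ D ≤ Fintype.card (Line D) := by
  rw [Fintype.card_prod, Fintype.card_fin]
  refine Nat.le_mul_of_pos_left _ ?_
  exact Fintype.card_pos_iff.2 ⟨.inl (.inl 0)⟩

lemma isFree_iff {k n : ℕ} {H : Fin k → Fin k → Bool} {A : Fin n → Fin n → Bool} :
    IsFree H A ↔ ∀ p, ¬ IsCopy H A p := by
  classical
  simp [IsFree, numCopies, Finset.filter_eq_empty_iff]

lemma isFree_const {n : ℕ} : IsFree H7 (fun (_ _ : Fin n) => true) := by
  rw [isFree_iff]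
  rintro p ⟨-, -, h⟩
  have h11 := h 1 1
  rw [show H7 1 1 = false by decide] at h11
  exact Bool.noConfusion h11

/-- For every `D` there is a matrix with few copies that is far from free. -/
theorem exists_host (D : ℕ) :
    ∃ (n : ℕ) (A : Fin n → Fin n → Bool), 1 ≤ n ∧ (n : ℝ) ≤ 120 * ((D : ℝ) + 1) ^ 2 * 2 ^ D ∧
      2 ^ D ≤ n ∧ numCopies H7 A ≤ 2 ^ D * n ^ 12 ∧
      ∀ B, IsFree H7 B → (1 / 50000 : ℝ) * (2 ^ D * 2 ^ D) ≤ numDiff A B := by
  classical
  obtain ⟨e, hmono, hlt⟩ := exists_order D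
  let A : Fin (Fintype.card (Line D)) → Fin (Fintype.card (Line D)) → Bool :=
    fun a b => val (lineCls (e a)) (lineCls (e b))
  refine ⟨_, A, ?_, card_line_le D, le_card_line D, ?_, ?_⟩
  · exact le_trans Nat.one_le_two_pow (le_card_line D)
  · have leaf : ∀ p, IsCopy H7 A p → ∃ v, lineCls (e (p.1 0)) = Cls.tr D v false ∧
        lineCls (e (p.2 2)) = Cls.tr D v true := by
      rintro p ⟨hr, hc, hv⟩
      exact ClsCopy.same_leaf (u := fun i => lineCls (e (p.1 i)))
        (w := fun i => lineCls (e (p.2 i)))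
        ⟨fun i j hij => hmono _ _ (hr.monotone hij), fun i j hij => hmono _ _ (hc.monotone hij),
          hv⟩
    let T := Fin (2 ^ D) × (Fin 6 → Fin (Fintype.card (Line D))) ×
      (Fin 6 → Fin (Fintype.card (Line D)))
    let g : ((Fin 7 → Fin (Fintype.card (Line D))) × (Fin 7 → Fin (Fintype.card (Line D)))) → T :=
      fun p => ((e (p.1 0)).2, fun i => p.1 i.succ, fun i => p.2 ((2 : Fin 7).succAbove i))
    have hcard : (Finset.univ : Finset T).card =
        2 ^ D * Fintype.card (Line D) ^ 12 := by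
      simp only [T, Finset.card_univ, Fintype.card_prod, Fintype.card_fin, Fintype.card_fun]
      ring
    rw [numCopies, ← hcard]
    refine Finset.card_le_card_of_injOn g (fun p _ => Finset.mem_univ _) ?_
    intro p hp q hq hg
    simp only [Finset.coe_filter, Finset.mem_univ, true_and, Set.mem_ofPred_eq] at hp hq
    obtain ⟨v, hv0, hv2⟩ := leaf p hp
    obtain ⟨v', hv0', hv2'⟩ := leaf q hq
    have hg1 : (e (p.1 0)).2 = (e (q.1 0)).2 := congrArg Prod.fst hg
    have hg2 : (fun i : Fin 6 => p.1 i.succ) = fun i : Fin 6 => q.1 i.succ :=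
      congrArg (fun t : T => t.2.1) hg
    have hg3 : (fun i : Fin 6 => p.2 ((2 : Fin 7).succAbove i)) =
        fun i : Fin 6 => q.2 ((2 : Fin 7).succAbove i) := congrArg (fun t : T => t.2.2) hg
    obtain ⟨a0, b0⟩ := line_of_leafCls hv0
    obtain ⟨a2, b2⟩ := line_of_leafCls hv2
    obtain ⟨a0', b0'⟩ := line_of_leafCls hv0'
    obtain ⟨a2', b2'⟩ := line_of_leafCls hv2'
    have r0 : p.1 0 = q.1 0 := e.injective (by rw [a0, a0', hg1])
    have c2 : p.2 2 = q.2 2 := by
      have : (e (p.2 2)).2 = (e (q.2 2)).2 := by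
        apply Fin.ext
        rw [b2, b2', ← b0, ← b0', hg1]
      exact e.injective (by rw [a2, a2', this])
    refine Prod.ext (funext fun i => ?_) (funext fun i => ?_)
    · refine Fin.cases r0 (fun j => congrFun hg2 j) i
    · rcases Fin.eq_self_or_eq_succAbove (2 : Fin 7) i with rfl | ⟨j, rfl⟩
      · exact c2
      · exact congrFun hg3 j
  · intro B hB
    rw [isFree_iff] at hB
    let B' : Line D → Line D → Bool := fun x y => B (e.symm x) (e.symm y)
    have hN : NoCopy B' := by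
      intro r c hr hc
      by_contra hcon
      push Not at hcon
      refine hB (fun i => e.symm (r i), fun j => e.symm (c j)) ⟨?_, ?_, hcon⟩
      · intro i j hij; exact hlt _ _ (by simpa using hr hij)
      · intro i j hij; exact hlt _ _ (by simpa using hc hij)
    refine (numFlips_ge B' hN).trans_eq ?_
    have hd : (numDiff A B : ℝ) =
        ∑ a, ∑ b, ((if A a b ≠ B a b then 1 else 0 : ℕ) : ℝ) := by
      rw [numDiff, Finset.card_filter, Nat.cast_sum]
      exact Fintype.sum_prod_type _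
    rw [numFlips, hd, ← e.sum_comp]
    refine Finset.sum_congr rfl fun a _ => ?_
    rw [← e.sum_comp]
    refine Finset.sum_congr rfl fun b _ => ?_
    simp only [flipped, B', A, Equiv.symm_apply_apply]
    by_cases h : B a b = val (lineCls (e a)) (lineCls (e b))
    · simp [h]
    · simp [h, Ne.symm h]

/-- The main theorem: no polynomial removal bound holds for `H7`. -/
theorem no_polynomial_bound (c C : ℝ) (hc : 0 < c) (_hC : 0 < C) :
    ∃ (n : ℕ) (ε : ℝ) (A : Fin n → Fin n → Bool), 1 ≤ n ∧ 0 < ε ∧ ε < 1 ∧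
      ε ≤ distFree H7 A ∧ (numCopies H7 A : ℝ) < c * ε ^ C * (n : ℝ) ^ (2 * 7) := by
  obtain ⟨m, hm⟩ := exists_nat_ge C
  obtain ⟨κ, hκ⟩ : ∃ κ : ℝ, κ = 1 / 720000000 := ⟨_, rfl⟩
  have hκ0 : 0 < κ := by rw [hκ]; norm_num
  have hlim := tendsto_pow_const_div_const_pow_of_one_lt (4 * m) (one_lt_two : (1 : ℝ) < 2)
  have hev := (hlim.eventually (gt_mem_nhds (show (0 : ℝ) < c * κ ^ m / 2 by positivity))).and
    (Filter.eventually_ge_atTop 1)
  obtain ⟨N, hN, hN1⟩ := hev.exists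
  obtain ⟨D, rfl⟩ : ∃ D, N = D + 1 := ⟨N - 1, by omega⟩
  obtain ⟨n, A, hn1, hnle, hSn, hcop, hfar⟩ := exists_host D
  push_cast at hN
  have hnr : (0 : ℝ) < n := by exact_mod_cast hn1
  have hx : (1 : ℝ) ≤ ((D : ℝ) + 1) ^ 4 := one_le_pow₀ (by linarith [(Nat.cast_nonneg D : (0:ℝ) ≤ D)])
  refine ⟨n, κ / ((D : ℝ) + 1) ^ 4, A, hn1, by positivity, ?_, ?_, ?_⟩
  · rw [div_lt_one (by positivity)]
    rw [hκ]; linarith
  · have hne : {d : ℕ | ∃ B : Fin n → Fin n → Bool, IsFree H7 B ∧ numDiff A B = d}.Nonempty :=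
      ⟨_, _, isFree_const, rfl⟩
    obtain ⟨B, hB, hBd⟩ := Nat.sInf_mem hne
    rw [distFree, ← hBd, one_div_mul_eq_div, le_div_iff₀ (by positivity)]
    refine le_trans ?_ (hfar B hB)
    rw [div_mul_eq_mul_div, div_le_iff₀ (by positivity)]
    calc κ * (n : ℝ) ^ 2 ≤ κ * (120 * ((D : ℝ) + 1) ^ 2 * 2 ^ D) ^ 2 := by gcongr
      _ = _ := by rw [hκ]; ring
  · set ε : ℝ := κ / ((D : ℝ) + 1) ^ 4 with hε
    have hε0 : 0 < ε := by positivity
    have hε1 : ε ≤ 1 := by
      rw [hε, div_le_one (by positivity), hκ]; linarith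
    have hpow : ε ^ m ≤ ε ^ C := by
      rw [← Real.rpow_natCast]
      exact Real.rpow_le_rpow_of_exponent_ge hε0 hε1 hm
    have hkey : (1 : ℝ) / 2 ^ D < c * ε ^ m := by
      rw [hε, div_pow, ← pow_mul]
      rw [pow_succ (2 : ℝ) D] at hN
      rw [div_lt_iff₀ (by positivity)] at hN
      rw [← mul_div_assoc, div_lt_div_iff₀ (by positivity) (by positivity), one_mul]
      linarith
    have hS : (2 : ℝ) ^ D ≤ n := by exact_mod_cast hSn
    calc (numCopies H7 A : ℝ) ≤ 2 ^ D * (n : ℝ) ^ 12 := by exact_mod_cast hcop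
      _ ≤ 1 / 2 ^ D * (n : ℝ) ^ (2 * 7) := by
          rw [one_div_mul_eq_div, le_div_iff₀ (by positivity)]
          have h2 : (2 : ℝ) ^ D * 2 ^ D ≤ (n : ℝ) * n :=
            mul_le_mul hS hS (by positivity) hnr.le
          calc (2 : ℝ) ^ D * (n : ℝ) ^ 12 * 2 ^ D = (2 ^ D * 2 ^ D) * (n : ℝ) ^ 12 := by ring
            _ ≤ ((n : ℝ) * n) * (n : ℝ) ^ 12 := by gcongr
            _ = _ := by ring
      _ < c * ε ^ m * (n : ℝ) ^ (2 * 7) := by gcongr
      _ ≤ c * ε ^ C * (n : ℝ) ^ (2 * 7) := by gcongr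

end Vale.Agent.P037
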