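import Mathlib.Algebra.BigOperators.Ring.Finset
import Mathlib.Algebra.Order.BigOperators.Group.Finset
import Mathlib.Algebra.BigOperators.Field
import Mathlib.Algebra.Order.BigOperators.Ring.Finset
import Mathlib.Data.Fintype.Pi
import Mathlib.Data.Fintype.Prod
import Mathlib.Data.Real.Basic
import Mathlib.Tactic.FieldSimp
import Mathlib.Tactic.FinCases
import Mathlib.Tactic.Linarith
import Mathlib.Tactic.NormNum
import Mathlib.Tactic.Ring

/-!
Choosing seven rows and seven columns from prescribed sets so as to avoid few bad entries.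
-/

namespace Vale.Agent.P037

variable {α : Type*} [DecidableEq α]

/-- The average of a function on a product of two finite sets. -/
noncomputable def avg (X Y : Finset α) (F : α → α → ℝ) : ℝ :=
  (∑ x ∈ X, ∑ y ∈ Y, F x y) / ((X.card : ℝ) * Y.card)

/-- The number of choice functions. -/
noncomputable def numChoices (R : Fin 7 → Finset α) : ℝ := ∏ i, ((R i).card : ℝ)

lemma sum_pi_one (R : Fin 7 → Finset α) (hR : ∀ i, (R i).Nonempty) (a : Fin 7) (φ : α → ℝ) :
    ∑ r ∈ Fintype.piFinset R, φ (r a) = numChoices R * ((∑ x ∈ R a, φ x) / (R a).card) := by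
  have key := Finset.prod_univ_sum R (fun i x => if i = a then φ x else (1 : ℝ))
  have hl : ∀ r : Fin 7 → α, (∏ i, if i = a then φ (r i) else (1 : ℝ)) = φ (r a) := by
    intro r
    rw [Finset.prod_ite_eq' Finset.univ a (fun i => φ (r i))]
    simp
  simp only [hl] at key
  rw [← key, numChoices, ← Finset.mul_prod_erase _ _ (Finset.mem_univ a),
    ← Finset.mul_prod_erase _ (fun i => ((R i).card : ℝ)) (Finset.mem_univ a)]
  have he : (∏ i ∈ Finset.univ.erase a, ∑ x ∈ R i, if i = a then φ x else (1 : ℝ)) =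
      ∏ i ∈ Finset.univ.erase a, ((R i).card : ℝ) := by
    refine Finset.prod_congr rfl fun i hi => ?_
    simp [(Finset.mem_erase.1 hi).1]
  rw [he]
  have h0 : ((R a).card : ℝ) ≠ 0 := by exact_mod_cast (hR a).card_ne_zero
  simp only [if_true]
  field_simp

lemma sum_pi_two (R : Fin 7 → Finset α) (hR : ∀ i, (R i).Nonempty) {a b : Fin 7} (hab : a ≠ b)
    (φ ψ : α → ℝ) :
    ∑ r ∈ Fintype.piFinset R, φ (r a) * ψ (r b) =
      numChoices R * (((∑ x ∈ R a, φ x) / (R a).card) * ((∑ x ∈ R b, ψ x) / (R b).card)) := by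
  have key := Finset.prod_univ_sum R
    (fun i x => (if i = a then φ x else 1) * (if i = b then ψ x else (1 : ℝ)))
  have hl : ∀ r : Fin 7 → α,
      (∏ i, (if i = a then φ (r i) else (1 : ℝ)) * (if i = b then ψ (r i) else 1)) =
        φ (r a) * ψ (r b) := by
    intro r
    rw [Finset.prod_mul_distrib, Finset.prod_ite_eq' Finset.univ a (fun i => φ (r i)),
      Finset.prod_ite_eq' Finset.univ b (fun i => ψ (r i))]
    simp
  simp only [hl] at key
  have hb : b ∈ Finset.univ.erase a := Finset.mem_erase.2 ⟨hab.symm, Finset.mem_univ b⟩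
  rw [← key, numChoices, ← Finset.mul_prod_erase _ _ (Finset.mem_univ a),
    ← Finset.mul_prod_erase _ (fun i => ((R i).card : ℝ)) (Finset.mem_univ a),
    ← Finset.mul_prod_erase _ _ hb, ← Finset.mul_prod_erase _ (fun i => ((R i).card : ℝ)) hb]
  have he : (∏ i ∈ (Finset.univ.erase a).erase b,
      ∑ x ∈ R i, (if i = a then φ x else 1) * (if i = b then ψ x else (1 : ℝ))) =
      ∏ i ∈ (Finset.univ.erase a).erase b, ((R i).card : ℝ) := by
    refine Finset.prod_congr rfl fun i hi => ?_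
    simp [(Finset.mem_erase.1 hi).1, (Finset.mem_erase.1 (Finset.mem_erase.1 hi).2).1]
  rw [he]
  have h0 : ((R a).card : ℝ) ≠ 0 := by exact_mod_cast (hR a).card_ne_zero
  have h1 : ((R b).card : ℝ) ≠ 0 := by exact_mod_cast (hR b).card_ne_zero
  simp only [if_true, if_neg hab, if_neg hab.symm, mul_one, one_mul]
  field_simp

variable (R C : Fin 7 → Finset α)

lemma sum_entry (hR : ∀ i, (R i).Nonempty) (hC : ∀ i, (C i).Nonempty) (a b : Fin 7)
    (F : α → α → ℝ) :
    ∑ r ∈ Fintype.piFinset R, ∑ c ∈ Fintype.piFinset C, F (r a) (c b) =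
      numChoices R * numChoices C * avg (R a) (C b) F := by
  simp_rw [fun r : Fin 7 → α => sum_pi_one C hC b (F (r a))]
  rw [← Finset.mul_sum, sum_pi_one R hR a (fun x => (∑ y ∈ C b, F x y) / (C b).card), avg,
    ← Finset.sum_div]
  ring

lemma sum_two_entries (hR : ∀ i, (R i).Nonempty) (hC : ∀ i, (C i).Nonempty) {a b a' b' : Fin 7}
    (ha : a ≠ a') (hb : b ≠ b') (F G : α → α → ℝ) :
    ∑ r ∈ Fintype.piFinset R, ∑ c ∈ Fintype.piFinset C, F (r a) (c b) * G (r a') (c b') =
      numChoices R * numChoices C * (avg (R a) (C b) F * avg (R a') (C b') G) := by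
  simp_rw [fun r : Fin 7 → α => sum_pi_two C hC hb (F (r a)) (G (r a'))]
  rw [← Finset.mul_sum, sum_pi_two R hR ha (fun x => (∑ y ∈ C b, F x y) / (C b).card)
    (fun x => (∑ y ∈ C b', G x y) / (C b').card), avg, avg, ← Finset.sum_div, ← Finset.sum_div]
  ring

/-- The cells other than the centre and the two corners `(0, 2)`, `(2, 0)`. -/
def smallCells : Finset (Fin 7 × Fin 7) :=
  Finset.univ \ {(1, 1), (0, 2), (2, 0)}

lemma card_smallCells : smallCells.card = 46 := by decide

/-- If all but three cells have small bad density, the two corners have bad density at most a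
quarter and the centre has good density `θ`, some choice avoids every bad entry. -/
theorem exists_choice (f : Fin 7 → Fin 7 → α → α → ℝ)
    (hf : ∀ i j x y, f i j x y = 0 ∨ f i j x y = 1)
    (hR : ∀ i, (R i).Nonempty) (hC : ∀ i, (C i).Nonempty) {η θ : ℝ}
    (hsmall : ∀ p ∈ smallCells, avg (R p.1) (C p.2) (f p.1 p.2) ≤ η)
    (h02 : avg (R 0) (C 2) (f 0 2) ≤ 1 / 4) (h20 : avg (R 2) (C 0) (f 2 0) ≤ 1 / 4)
    (hW : θ ≤ avg (R 1) (C 1) (fun x y => 1 - f 1 1 x y)) (hθ : 92 * η < θ) (hθ0 : 0 ≤ θ) :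
    ∃ r c : Fin 7 → α, (∀ i, r i ∈ R i) ∧ (∀ j, c j ∈ C j) ∧ ∀ i j, f i j (r i) (c j) = 0 := by
  let g : (Fin 7 → α) → (Fin 7 → α) → ℝ := fun r c =>
    (1 - f 1 1 (r 1) (c 1)) - f 0 2 (r 0) (c 2) * (1 - f 1 1 (r 1) (c 1))
      - f 2 0 (r 2) (c 0) * (1 - f 1 1 (r 1) (c 1))
      - ∑ p ∈ smallCells, f p.1 p.2 (r p.1) (c p.2)
  have h0 : ∀ i j x y, (0 : ℝ) ≤ f i j x y := fun i j x y => by
    rcases hf i j x y with h | h <;> rw [h] <;> norm_num
  have hT : 0 < numChoices R * numChoices C := by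
    refine mul_pos (Finset.prod_pos fun i _ => ?_) (Finset.prod_pos fun i _ => ?_)
    · exact_mod_cast (hR i).card_pos
    · exact_mod_cast (hC i).card_pos
  have hsum : 0 < ∑ r ∈ Fintype.piFinset R, ∑ c ∈ Fintype.piFinset C, g r c := by
    simp only [g, Finset.sum_sub_distrib]
    have e1 := sum_entry R C hR hC 1 1 (fun x y => 1 - f 1 1 x y)
    simp only [Finset.sum_sub_distrib] at e1
    rw [e1, sum_two_entries R C hR hC (a := 0) (b := 2) (a' := 1) (b' := 1) (by decide) (by decide)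
        (f 0 2) (fun x y => 1 - f 1 1 x y),
      sum_two_entries R C hR hC (a := 2) (b := 0) (a' := 1) (b' := 1) (by decide) (by decide)
        (f 2 0) (fun x y => 1 - f 1 1 x y)]
    rw [show (∑ r ∈ Fintype.piFinset R, ∑ c ∈ Fintype.piFinset C,
        ∑ p ∈ smallCells, f p.1 p.2 (r p.1) (c p.2)) =
        numChoices R * numChoices C * ∑ p ∈ smallCells, avg (R p.1) (C p.2) (f p.1 p.2) by
      rw [Finset.mul_sum]
      calc _ = ∑ r ∈ Fintype.piFinset R, ∑ p ∈ smallCells,
              ∑ c ∈ Fintype.piFinset C, f p.1 p.2 (r p.1) (c p.2) :=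
            Finset.sum_congr rfl fun r _ => Finset.sum_comm
        _ = ∑ p ∈ smallCells, ∑ r ∈ Fintype.piFinset R,
              ∑ c ∈ Fintype.piFinset C, f p.1 p.2 (r p.1) (c p.2) := Finset.sum_comm
        _ = _ := Finset.sum_congr rfl fun p _ => sum_entry R C hR hC p.1 p.2 _]
    have hs : (∑ p ∈ smallCells, avg (R p.1) (C p.2) (f p.1 p.2)) ≤ 46 * η := by
      have := Finset.sum_le_sum hsmall
      simpa [card_smallCells] using this
    set W := avg (R 1) (C 1) (fun x y => 1 - f 1 1 x y) with hWdef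
    have hWpos : 0 ≤ W := hθ0.trans hW
    have t1 := mul_le_mul_of_nonneg_right h02 hWpos
    have t2 := mul_le_mul_of_nonneg_right h20 hWpos
    set s := ∑ p ∈ smallCells, avg (R p.1) (C p.2) (f p.1 p.2)
    set a := avg (R 0) (C 2) (f 0 2)
    set b := avg (R 2) (C 0) (f 2 0)
    have hkey : 0 < W - a * W - b * W - s := by linarith
    have := mul_pos hT hkey
    linarith [this]
  obtain ⟨r, hr, hr'⟩ := Finset.exists_lt_of_sum_lt (f := fun _ => (0 : ℝ))
    (by simpa using hsum : (∑ r ∈ Fintype.piFinset R, (0 : ℝ)) <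
      ∑ r ∈ Fintype.piFinset R, ∑ c ∈ Fintype.piFinset C, g r c)
  obtain ⟨c, hc, hc'⟩ := Finset.exists_lt_of_sum_lt (f := fun _ => (0 : ℝ))
    (by simpa using hr' : (∑ c ∈ Fintype.piFinset C, (0 : ℝ)) < ∑ c ∈ Fintype.piFinset C, g r c)
  refine ⟨r, c, Fintype.mem_piFinset.1 hr, Fintype.mem_piFinset.1 hc, ?_⟩
  have hs0 : (0 : ℝ) ≤ ∑ p ∈ smallCells, f p.1 p.2 (r p.1) (c p.2) :=
    Finset.sum_nonneg fun p _ => h0 _ _ _ _
  simp only [g] at hc'
  have p11 : f 1 1 (r 1) (c 1) = 0 := by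
    rcases hf 1 1 (r 1) (c 1) with h | h
    · exact h
    · rw [h] at hc'; linarith
  rw [p11] at hc'
  have p02 : f 0 2 (r 0) (c 2) = 0 := by
    rcases hf 0 2 (r 0) (c 2) with h | h
    · exact h
    · rw [h] at hc'; nlinarith [h0 2 0 (r 2) (c 0)]
  have p20 : f 2 0 (r 2) (c 0) = 0 := by
    rcases hf 2 0 (r 2) (c 0) with h | h
    · exact h
    · rw [h] at hc'; nlinarith [h0 0 2 (r 0) (c 2)]
  intro i j
  rcases hf i j (r i) (c j) with h | h
  · exact h
  exfalso
  by_cases hm : (i, j) ∈ smallCells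
  · have := Finset.single_le_sum (f := fun p : Fin 7 × Fin 7 => f p.1 p.2 (r p.1) (c p.2))
      (fun p _ => h0 _ _ _ _) hm
    simp only [h] at this
    rw [p02, p20] at hc'
    linarith
  · simp only [smallCells, Finset.mem_sdiff, Finset.mem_univ, true_and, not_not,
      Finset.mem_insert, Finset.mem_singleton, Prod.mk.injEq] at hm
    rcases hm with ⟨rfl, rfl⟩ | ⟨rfl, rfl⟩ | ⟨rfl, rfl⟩ <;> linarith

end Vale.Agent.P037
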