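import Mathlib.Data.Fin.VecNotation
import Mathlib.Data.Fin.Rev
import Mathlib.Data.Fintype.Prod
import Mathlib.Data.Fintype.Sum
import Mathlib.Data.Prod.Lex
import Mathlib.Data.Fintype.Sort
import Mathlib.Tactic.FinCases
import Mathlib.Tactic.Linarith

/-!
The pattern and the matrices `A_D`.

The pattern is a symmetric 7 × 7 matrix: a 3 × 3 core (all ones, zero centre) followed by four tag
lines. The host has, for each depth `j ≤ D` and each of two sides, sentinel lines at the two ends of
every dyadic interval of depth `j`, some coarse lines, and four tag classes per link.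
-/

namespace Vale.Agent.P037

/-- The pattern. -/
def H7 : Fin 7 → Fin 7 → Bool :=
  ![![true, true, true, false, true, false, true],
    ![true, false, true, false, true, true, true],
    ![true, true, true, false, false, true, true],
    ![false, false, false, false, false, false, true],
    ![true, true, false, false, false, false, true],
    ![false, true, true, false, false, false, true],
    ![true, true, true, true, true, true, true]]

lemma H7_symm (i j : Fin 7) : H7 i j = H7 j i := by
  revert i j; decide

/-- The index of the `α`-th tag line of the pattern. -/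
def tagIdx (α : Fin 4) : Fin 7 := ⟨3 + α.val, by omega⟩

/-- The index of the `i`-th core line of the pattern. -/
def coreIdx (i : Fin 3) : Fin 7 := ⟨i.val, by omega⟩

/-- Populations: four special ones, and `(depth, parity of node, side)`. -/
inductive Pop
  | sp (i : Fin 4)
  | tr (j : ℕ) (e s : Bool)
deriving DecidableEq

/-- The pairing of populations; `false` is the opening side and `true` the closing side. -/
def Pop.opp : Pop → Pop
  | .sp i => .sp i.rev
  | .tr j e s => .tr j e (!s)

lemma Pop.opp_opp (p : Pop) : p.opp.opp = p := by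
  cases p <;> simp [Pop.opp]

lemma Pop.opp_ne (p : Pop) : p.opp ≠ p := by
  cases p with
  | sp i => fin_cases i <;> simp [Pop.opp, Fin.rev, Fin.ext_iff]
  | tr j e s => cases s <;> simp [Pop.opp]

abbrev TPop (D : ℕ) : Type := Fin (D + 1) × Bool × Bool

def TPop.toPop {D : ℕ} (p : TPop D) : Pop := Pop.tr p.1.val p.2.1 p.2.2

/-- Links: parent to child, terminal, and coarse. -/
abbrev Link (D : ℕ) : Type := (Fin D × Bool × Bool × Bool) ⊕ Bool ⊕ (TPop D × TPop D)

instance instDecEqTPop (D : ℕ) : DecidableEq (TPop D) := inferInstance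

instance instDecEqLink (D : ℕ) : DecidableEq (Link D) := inferInstance

instance instFintypeLink (D : ℕ) : Fintype (Link D) := inferInstance

/-- The three row populations of a link. -/
def rowRole {D : ℕ} : Link D → Fin 3 → Pop
  | .inl (j, e', e, s) => ![.tr j.val e' false, .tr (j.val + 1) e s, .tr j.val e' true]
  | .inr (.inl e) => ![.tr D e false, .sp 2, .sp 3]
  | .inr (.inr (p, _)) => ![.sp 0, p.toPop, .sp 3]

/-- The three column populations of a link. -/
def colRole {D : ℕ} : Link D → Fin 3 → Pop
  | .inl (j, e', e, s) => ![.tr j.val e' false, .tr (j.val + 1) e (!s), .tr j.val e' true]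
  | .inr (.inl e) => ![.sp 0, .sp 1, .tr D e true]
  | .inr (.inr (p, q)) =>
      ![.sp 0, if q.toPop = p.toPop.opp then p.toPop else q.toPop, .sp 3]

/-- Incidence of a core population with the tag classes of a link with roles `R`. -/
def inc (R : Fin 3 → Pop) (p : Pop) (α : Fin 4) : Bool :=
  if p = R 0 then H7 0 (tagIdx α)
  else if p = R 1 then H7 1 (tagIdx α)
  else if p = R 2 then H7 2 (tagIdx α)
  else false

/-- Classes of lines; `tr j v s` is side `s` of node `v` of depth `j`. -/
inductive Cls (D : ℕ)
  | sp (i : Fin 4)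
  | tr (j v : ℕ) (s : Bool)
  | tag (l : Link D) (α : Fin 4)
deriving DecidableEq

def bitOf (v : ℕ) : Bool := decide (v % 2 = 1)

/-- The population of a core class (a dummy value at tag classes). -/
def Cls.pop {D : ℕ} : Cls D → Pop
  | .sp i => .sp i
  | .tr j v s => .tr j (bitOf v) s
  | .tag _ _ => .sp 0

def Cls.IsTag {D : ℕ} : Cls D → Prop
  | .tag _ _ => True
  | _ => False

/-- The index of a node (zero at the other classes). -/
def Cls.node {D : ℕ} : Cls D → ℕ
  | .tr _ v _ => v
  | _ => 0

/-- Among paired core classes, those with entry zero. -/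
def zeroNode {D : ℕ} : Cls D → Cls D → Bool
  | .tr _ v _, .tr _ w _ => decide (v ≠ w)
  | .sp i, .sp k => decide (i = 2 ∧ k = 1)
  | _, _ => false

/-- The entries in the core × core region. -/
def coreVal {D : ℕ} (u w : Cls D) : Bool :=
  !(decide (w.pop = u.pop.opp) && zeroNode u w)

/-- The entries of the host matrix, by classes. -/
def val {D : ℕ} : Cls D → Cls D → Bool
  | .tag l α, .tag l' β => decide (l = l') && H7 (tagIdx α) (tagIdx β)
  | .tag l α, w => inc (colRole l) w.pop α
  | u, .tag l α => inc (rowRole l) u.pop α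
  | u, w => coreVal u w

/-- The position of a class. -/
noncomputable def pos {D : ℕ} : Cls D → ℕ ×ₗ (ℕ ×ₗ ℕ)
  | .sp i => toLex (![0, 1, 3, 4] i, toLex (0, 0))
  | .tr j v s =>
      toLex (2, if s then toLex ((v + 1) * 2 ^ (D - j), D + 1 - j)
        else toLex (v * 2 ^ (D - j), D + 2 + j))
  | .tag l α => toLex (5, toLex ((Fintype.equivFin (Link D) l).val, α.val))

/-- Global classes. -/
abbrev Glob (D : ℕ) : Type := Fin 4 ⊕ (Link D × Fin 4)

/-- The lines of the host. -/
abbrev Line (D : ℕ) : Type := (Glob D ⊕ (Fin (D + 1) × Bool)) × Fin (2 ^ D)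

instance instDecEqGlob (D : ℕ) : DecidableEq (Glob D) := inferInstance

instance instFintypeGlob (D : ℕ) : Fintype (Glob D) := inferInstance

instance instDecEqLine (D : ℕ) : DecidableEq (Line D) := inferInstance

/-- The node of depth `j` above leaf `ℓ`. -/
def nodeAt {D : ℕ} (j : ℕ) (ℓ : Fin (2 ^ D)) : ℕ := ℓ.val / 2 ^ (D - j)

def globCls {D : ℕ} : Glob D → Cls D
  | .inl i => .sp i
  | .inr (l, α) => .tag l α

def lineCls {D : ℕ} : Line D → Cls D
  | (.inl g, _) => globCls g
  | (.inr (j, s), ℓ) => .tr j.val (nodeAt j.val ℓ) s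

/-- There is an ordering of the lines compatible with the positions of their classes. -/
lemma exists_order (D : ℕ) :
    ∃ e : Fin (Fintype.card (Line D)) ≃ Line D,
      (∀ a b, a ≤ b → pos (lineCls (e a)) ≤ pos (lineCls (e b))) ∧
      (∀ a b, pos (lineCls (e a)) < pos (lineCls (e b)) → a < b) := by
  let f : Line D → (ℕ ×ₗ (ℕ ×ₗ ℕ)) ×ₗ ℕ :=
    fun x => toLex (pos (lineCls x), (Fintype.equivFin (Line D) x).val)
  have hf : Function.Injective f := by
    intro x y h
    have h' := congrArg Prod.snd (toLex.injective h)
    exact (Fintype.equivFin (Line D)).injective (Fin.ext h')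
  let : LinearOrder (Line D) := LinearOrder.lift' f hf
  let e := Fintype.orderIsoFinOfCardEq (Line D) rfl
  have h1 : ∀ a b, a ≤ b → pos (lineCls (e a)) ≤ pos (lineCls (e b)) := by
    intro a b h
    have h' : f (e a) ≤ f (e b) := e.monotone h
    rcases Prod.Lex.toLex_le_toLex.1 h' with h'' | h''
    · exact le_of_lt h''
    · exact le_of_eq h''.1
  refine ⟨e.toEquiv, h1, ?_⟩
  intro a b h
  by_contra hc
  exact absurd (h1 b a (not_lt.1 hc)) (not_le.2 h)

end Vale.Agent.P037
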