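import Mathlib.Data.Real.Basic
import Mathlib.Data.Fintype.Pi
import Mathlib.Data.Fintype.Prod
import Mathlib.Data.Nat.Lattice

namespace Vale.Agent.P037

/-- The pair `p = (r, c)` is an ordered copy of `H` in `A`. -/
def IsCopy {k n : ℕ} (H : Fin k → Fin k → Bool) (A : Fin n → Fin n → Bool)
    (p : (Fin k → Fin n) × (Fin k → Fin n)) : Prop :=
  StrictMono p.1 ∧ StrictMono p.2 ∧ ∀ i j, A (p.1 i) (p.2 j) = H i j

open Classical in
/-- The number of ordered copies of `H` in `A`. -/
noncomputable def numCopies {k n : ℕ} (H : Fin k → Fin k → Bool) (A : Fin n → Fin n → Bool) : ℕ :=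
  (Finset.univ.filter (fun p : (Fin k → Fin n) × (Fin k → Fin n) => IsCopy H A p)).card

/-- `A` has no ordered copy of `H`. -/
def IsFree {k n : ℕ} (H : Fin k → Fin k → Bool) (A : Fin n → Fin n → Bool) : Prop :=
  numCopies H A = 0

/-- The number of entries in which two matrices differ. -/
def numDiff {n : ℕ} (A B : Fin n → Fin n → Bool) : ℕ :=
  (Finset.univ.filter (fun p : Fin n × Fin n => A p.1 p.2 ≠ B p.1 p.2)).card

/-- The distance from `H`-freeness: the least fraction of entries changed to become `H`-free. -/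
noncomputable def distFree {k n : ℕ} (H : Fin k → Fin k → Bool) (A : Fin n → Fin n → Bool) : ℝ :=
  (1 / (n : ℝ) ^ 2) *
    ((sInf {d : ℕ | ∃ B : Fin n → Fin n → Bool, IsFree H B ∧ numDiff A B = d} : ℕ) : ℝ)

end Vale.Agent.P037
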