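import Vale.Agent.P037.Free
import Vale.Agent.P037.Choice

/-!
Every matrix without a copy of the pattern differs from the host in many entries.
-/

namespace Vale.Agent.P037

variable {D : ℕ}

/-- A leaf path: side `s` of the node of depth `j` above leaf `ℓ₀`. -/
def pathCls (ℓ₀ : Fin (2 ^ D)) (j : ℕ) (s : Bool) : Cls D := .tr j (nodeAt j ℓ₀) s

/-- Seven classes: three core classes and the tag classes of a link. -/
def ext7 (l : Link D) (a : Fin 3 → Cls D) : Fin 7 → Cls D :=
  ![a 0, a 1, a 2, .tag l 0, .tag l 1, .tag l 2, .tag l 3]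

lemma ext7_core (l : Link D) (a : Fin 3 → Cls D) (i : Fin 3) : ext7 l a (coreIdx i) = a i := by
  fin_cases i <;> rfl

lemma ext7_tag (l : Link D) (a : Fin 3 → Cls D) (α : Fin 4) :
    ext7 l a (tagIdx α) = .tag l α := by
  fin_cases α <;> rfl

lemma idx_cases : ∀ i : Fin 7, (∃ k, i = coreIdx k) ∨ ∃ α, i = tagIdx α := by decide

lemma inc_role {R : Fin 3 → Pop} (hR : Function.Injective R) (i : Fin 3) (α : Fin 4) :
    inc R (R i) α = H7 (coreIdx i) (tagIdx α) := by
  unfold inc
  fin_cases i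
  · simp [coreIdx]
  · simp [coreIdx, hR.eq_iff]
  · simp [coreIdx, hR.eq_iff]

lemma val_ext7 (l : Link D) (a b : Fin 3 → Cls D) (ha : ∀ i, ¬ (a i).IsTag)
    (hb : ∀ i, ¬ (b i).IsTag) (pa : ∀ i, (a i).pop = rowRole l i)
    (pb : ∀ i, (b i).pop = colRole l i) (ia : Function.Injective (rowRole l))
    (ib : Function.Injective (colRole l))
    (hcore : ∀ i k, (i, k) ≠ (1, 1) → coreVal (a i) (b k) = true) :
    ∀ i j : Fin 7, (i, j) ≠ (1, 1) → val (ext7 l a i) (ext7 l b j) = H7 i j := by
  intro i j hij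
  rcases idx_cases i with ⟨k, rfl⟩ | ⟨α, rfl⟩ <;> rcases idx_cases j with ⟨k', rfl⟩ | ⟨β, rfl⟩
  · rw [ext7_core, ext7_core, val_core (ha k) (hb k')]
    have hne : (k, k') ≠ (1, 1) := by
      rintro he
      simp only [Prod.mk.injEq] at he
      obtain ⟨rfl, rfl⟩ := he
      exact hij rfl
    rw [hcore k k' hne]
    have ht : ∀ k k' : Fin 3, (k, k') ≠ (1, 1) → H7 (coreIdx k) (coreIdx k') = true := by decide
    exact (ht k k' hne).symm
  · rw [ext7_core, ext7_tag, val_core_tag (ha k), pa, inc_role ia]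
  · rw [ext7_tag, ext7_core, val_tag_core (hb k'), pb, inc_role ib, H7_symm]
  · simp [ext7_tag, val]

lemma pos_lt_tag {a : Cls D} (ha : ¬ a.IsTag) (l : Link D) (α : Fin 4) :
    pos a < pos (Cls.tag l α) :=
  not_le.1 fun h => ha (tag_of_le h trivial)

lemma ext7_strictMono (l : Link D) (a : Fin 3 → Cls D) (ha : ∀ i, ¬ (a i).IsTag)
    (h1 : pos (a 0) < pos (a 1)) (h2 : pos (a 1) < pos (a 2)) :
    StrictMono fun i => pos (ext7 l a i) := by
  refine Fin.strictMono_iff_lt_succ.2 fun i => ?_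
  fin_cases i
  · exact h1
  · exact h2
  · exact pos_lt_tag (ha 2) l 0
  · show pos (Cls.tag l 0) < pos (Cls.tag l 1); simp [pos, Prod.Lex.toLex_lt_toLex]
  · show pos (Cls.tag l 1) < pos (Cls.tag l 2); simp [pos, Prod.Lex.toLex_lt_toLex]
  · show pos (Cls.tag l 2) < pos (Cls.tag l 3); simp [pos, Prod.Lex.toLex_lt_toLex]

lemma bitOf_nodeAt_zero (ℓ : Fin (2 ^ D)) : nodeAt 0 ℓ = 0 := by
  simp [nodeAt, Nat.div_eq_of_lt ℓ.isLt]

lemma nodeAt_succ_div {j : ℕ} (hj : j < D) (ℓ : Fin (2 ^ D)) :
    nodeAt (j + 1) ℓ / 2 = nodeAt j ℓ := by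
  rw [nodeAt, nodeAt, Nat.div_div_eq_div_mul, ← pow_succ]
  congr 2
  omega

lemma path_open_lt {ℓ₀ : Fin (2 ^ D)} {j : ℕ} (hj : j < D) (s : Bool) :
    pos (pathCls ℓ₀ j false) < pos (pathCls ℓ₀ (j + 1) s) ∧
      pos (pathCls ℓ₀ (j + 1) s) < pos (pathCls ℓ₀ j true) := by
  unfold pathCls
  have hp : 2 ^ (D - j) = 2 * 2 ^ (D - (j + 1)) := by
    rw [← pow_succ', show D - (j + 1) + 1 = D - j by omega]
  have hq : 0 < 2 ^ (D - (j + 1)) := by positivity
  have hd := nodeAt_succ_div hj ℓ₀
  generalize nodeAt (j + 1) ℓ₀ = v at hd ⊢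
  generalize nodeAt j ℓ₀ = x at hd ⊢
  have hlo : x * 2 ^ (D - j) ≤ v * 2 ^ (D - (j + 1)) := by
    rw [hp, ← mul_assoc]; exact Nat.mul_le_mul_right _ (by omega)
  have hhi : (v + 1) * 2 ^ (D - (j + 1)) ≤ (x + 1) * 2 ^ (D - j) := by
    rw [hp, ← mul_assoc]; exact Nat.mul_le_mul_right _ (by omega)
  have hv : (v + 1) * 2 ^ (D - (j + 1)) = v * 2 ^ (D - (j + 1)) + 2 ^ (D - (j + 1)) := by ring
  cases s <;> simp [pos_tr_open, pos_tr_close, Prod.Lex.toLex_lt_toLex] <;> omega

/-- The lines of a class. -/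
noncomputable def cset (c : Cls D) : Finset (Line D) :=
  Finset.univ.filter fun x => lineCls x = c

/-- The indicator of the entries where `B` differs from the host. -/
def flipped (B : Line D → Line D → Bool) (x y : Line D) : ℝ :=
  if B x y = val (lineCls x) (lineCls y) then 0 else 1

/-- The density of changed entries between two classes. -/
noncomputable def dens (B : Line D → Line D → Bool) (a b : Cls D) : ℝ :=
  avg (cset a) (cset b) (flipped B)

/-- `B` has no copy of the pattern using lines in increasing classes. -/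
def NoCopy (B : Line D → Line D → Bool) : Prop :=
  ∀ r c : Fin 7 → Line D, StrictMono (fun i => pos (lineCls (r i))) →
    StrictMono (fun i => pos (lineCls (c i))) → ∃ i j, B (r i) (c j) ≠ H7 i j

lemma glob_nonempty (g : Glob D) : (cset (globCls g)).Nonempty :=
  ⟨(.inl g, ⟨0, by positivity⟩), Finset.mem_filter.2 ⟨Finset.mem_univ _, rfl⟩⟩

lemma path_nonempty {ℓ₀ : Fin (2 ^ D)} {j : ℕ} (hj : j ≤ D) (s : Bool) :
    (cset (pathCls ℓ₀ j s)).Nonempty :=
  ⟨(.inr (⟨j, by omega⟩, s), ℓ₀), Finset.mem_filter.2 ⟨Finset.mem_univ _, rfl⟩⟩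

lemma sp_nonempty (i : Fin 4) : (cset (Cls.sp (D := D) i)).Nonempty :=
  glob_nonempty (.inl i)

lemma ext7_nonempty (l : Link D) (a : Fin 3 → Cls D) (h : ∀ i, (cset (a i)).Nonempty) :
    ∀ i, (cset (ext7 l a i)).Nonempty := by
  intro i
  rcases idx_cases i with ⟨k, rfl⟩ | ⟨α, rfl⟩
  · rw [ext7_core]; exact h k
  · rw [ext7_tag]; exact glob_nonempty (.inr (l, α))

lemma flipped_cases (B : Line D → Line D → Bool) (x y : Line D) :
    flipped B x y = 0 ∨ flipped B x y = 1 := by
  unfold flipped; split_ifs <;> simp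

lemma avg_congr {α : Type*} {X Y : Finset α} {F G : α → α → ℝ}
    (h : ∀ x ∈ X, ∀ y ∈ Y, F x y = G x y) : avg X Y F = avg X Y G := by
  unfold avg
  rw [Finset.sum_congr rfl fun x hx => Finset.sum_congr rfl fun y hy => h x hx y hy]

/-- Few changed entries between the classes of a pattern force a copy. -/
lemma noCopy_contra {B : Line D → Line D → Bool} (hB : NoCopy B) (u w : Fin 7 → Cls D)
    (su : StrictMono fun i => pos (u i)) (sw : StrictMono fun i => pos (w i))
    (nu : ∀ i, (cset (u i)).Nonempty) (nw : ∀ i, (cset (w i)).Nonempty)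
    (hval : ∀ i j, (i, j) ≠ (1, 1) → val (u i) (w j) = H7 i j) {η θ : ℝ}
    (hsmall : ∀ p ∈ smallCells, dens B (u p.1) (w p.2) ≤ η)
    (h02 : dens B (u 0) (w 2) ≤ 1 / 4) (h20 : dens B (u 2) (w 0) ≤ 1 / 4)
    (hW : θ ≤ avg (cset (u 1)) (cset (w 1)) fun x y => if B x y = false then 1 else 0)
    (hθ : 92 * η < θ) (hθ0 : 0 ≤ θ) : False := by
  let f : Fin 7 → Fin 7 → Line D → Line D → ℝ :=
    fun i j x y => if B x y = H7 i j then 0 else 1
  have hd : ∀ i j, (i, j) ≠ (1, 1) →
      avg (cset (u i)) (cset (w j)) (f i j) = dens B (u i) (w j) := by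
    intro i j hij
    refine avg_congr fun x hx y hy => ?_
    simp only [cset, Finset.mem_filter] at hx hy
    simp only [f, flipped, hx.2, hy.2, hval i j hij]
  obtain ⟨r, c, hr, hc, he⟩ := exists_choice (fun i => cset (u i)) (fun i => cset (w i)) f
    (fun i j x y => by simp only [f]; split_ifs <;> simp) nu nw
    (fun p hp => by
      rw [hd p.1 p.2 (by rintro e; rw [show p = (1, 1) from e] at hp; revert hp; decide)]
      exact hsmall p hp)
    (by rw [hd 0 2 (by decide)]; exact h02) (by rw [hd 2 0 (by decide)]; exact h20)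
    (le_of_le_of_eq hW (avg_congr fun x _ y _ => by
      simp only [f, show H7 1 1 = false by decide]
      split_ifs <;> simp)) hθ hθ0
  have hr' : ∀ i, lineCls (r i) = u i := fun i => by simpa [cset] using hr i
  have hc' : ∀ i, lineCls (c i) = w i := fun i => by simpa [cset] using hc i
  obtain ⟨i, j, hij⟩ := hB r c (by simpa only [hr'] using su) (by simpa only [hc'] using sw)
  have := he i j
  simp only [f, if_neg hij] at this
  norm_num at this

/-- The conditions on a leaf: few changes between its path and the global classes. -/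
structure Good (B : Line D → Line D → Bool) (ℓ₀ : Fin (2 ^ D)) : Prop where
  gg : ∀ g g' : Glob D, dens B (globCls g) (globCls g') ≤ 1 / 50000
  pg : ∀ j ≤ D, ∀ (s : Bool) (g : Glob D), dens B (pathCls ℓ₀ j s) (globCls g) ≤ 1 / 50000
  gp : ∀ j ≤ D, ∀ (s : Bool) (g : Glob D), dens B (globCls g) (pathCls ℓ₀ j s) ≤ 1 / 50000
  root : ∀ s t : Bool, dens B (pathCls ℓ₀ 0 s) (pathCls ℓ₀ 0 t) ≤ 1 / 50000

lemma not_tag_path (ℓ₀ : Fin (2 ^ D)) (j : ℕ) (s : Bool) : ¬ (pathCls ℓ₀ j s).IsTag := id

lemma not_tag_sp (i : Fin 4) : ¬ (Cls.sp (D := D) i).IsTag := id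

/-- Non-paired classes of a path: few changes, by a coarse link. -/
lemma Good.local_le {B : Line D → Line D → Bool} (hB : NoCopy B) {ℓ₀ : Fin (2 ^ D)}
    (hG : Good B ℓ₀) {j k : ℕ} (hj : j ≤ D) (hk : k ≤ D) (s t : Bool)
    (hne : ¬ (j = k ∧ s ≠ t)) : dens B (pathCls ℓ₀ j s) (pathCls ℓ₀ k t) ≤ 1 / 500 := by
  by_contra hlt
  rw [not_le] at hlt
  let p : TPop D := (⟨j, by omega⟩, bitOf (nodeAt j ℓ₀), s)
  let q : TPop D := (⟨k, by omega⟩, bitOf (nodeAt k ℓ₀), t)
  let l : Link D := .inr (.inr (p, q))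
  have hpq : q.toPop ≠ p.toPop.opp := by
    simp only [p, q, TPop.toPop, Pop.opp, ne_eq, Pop.tr.injEq]
    rintro ⟨rfl, -, rfl⟩
    exact hne ⟨rfl, by simp⟩
  let a : Fin 3 → Cls D := ![.sp 0, pathCls ℓ₀ j s, .sp 3]
  let b : Fin 3 → Cls D := ![.sp 0, pathCls ℓ₀ k t, .sp 3]
  have ha : ∀ i, ¬ (a i).IsTag := by intro i; fin_cases i <;> exact id
  have hb : ∀ i, ¬ (b i).IsTag := by intro i; fin_cases i <;> exact id
  have pa : ∀ i, (a i).pop = rowRole l i := by intro i; fin_cases i <;> rfl
  have pb : ∀ i, (b i).pop = colRole l i := by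
    intro i
    simp only [l, colRole, if_neg hpq]
    fin_cases i <;> rfl
  have ia : Function.Injective (rowRole l) := by
    intro i i' h
    fin_cases i <;> fin_cases i' <;> simp [l, rowRole, TPop.toPop] at h ⊢
  have ib : Function.Injective (colRole l) := by
    intro i i' h
    simp only [l, colRole, if_neg hpq] at h
    fin_cases i <;> fin_cases i' <;> simp [TPop.toPop] at h ⊢
  have hcore : ∀ i i', (i, i') ≠ (1, 1) → coreVal (a i) (b i') = true := by
    intro i i' h
    fin_cases i <;> fin_cases i' <;>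
      first
        | exact absurd rfl h
        | simp [a, b, pathCls, coreVal, zeroNode, Cls.pop, Pop.opp]
  have l1 : ∀ (j : ℕ) (s : Bool), pos (Cls.sp (D := D) 0) < pos (pathCls ℓ₀ j s) ∧
      pos (pathCls ℓ₀ j s) < pos (Cls.sp (D := D) 3) := by
    intro j s; simp [pos, pathCls, Prod.Lex.toLex_lt_toLex]
  have small : ∀ i i' : Fin 7, (i, i') ≠ (1, 1) →
      dens B (ext7 l a i) (ext7 l b i') ≤ 1 / 50000 := by
    have glob : ∀ (a : Fin 3 → Cls D), a 0 = .sp 0 → a 2 = .sp 3 → ∀ i : Fin 7, i ≠ 1 →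
        ∃ g : Glob D, ext7 l a i = globCls g := by
      intro a e0 e2 i hi
      rcases idx_cases i with ⟨m, rfl⟩ | ⟨α, rfl⟩
      · fin_cases m
        · exact ⟨.inl 0, (ext7_core l a 0).trans e0⟩
        · exact absurd rfl hi
        · exact ⟨.inl 3, (ext7_core l a 2).trans e2⟩
      · exact ⟨.inr (l, α), ext7_tag l a α⟩
    intro i i' h
    by_cases hi : i = 1
    · subst hi
      obtain ⟨g, hg⟩ := glob b rfl rfl i' (fun e => h (by rw [e]))
      rw [hg]; exact hG.pg j hj s g
    · obtain ⟨g, hg⟩ := glob a rfl rfl i hi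
      rw [hg]
      by_cases hi' : i' = 1
      · subst hi'; exact hG.gp k hk t g
      · obtain ⟨g', hg'⟩ := glob b rfl rfl i' hi'
        rw [hg']; exact hG.gg g g'
  refine noCopy_contra hB (ext7 l a) (ext7 l b) (ext7_strictMono l a ha (l1 j s).1 (l1 j s).2)
    (ext7_strictMono l b hb (l1 k t).1 (l1 k t).2) ?_ ?_
    (val_ext7 l a b ha hb pa pb ia ib hcore)
    (η := 1 / 50000) (θ := 1 / 500) (fun p hp => small p.1 p.2 ?_)
    ((small 0 2 (by decide)).trans (by norm_num)) ((small 2 0 (by decide)).trans (by norm_num))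
    ?_ (by norm_num) (by norm_num)
  · refine ext7_nonempty l a fun i => ?_
    fin_cases i
    · exact sp_nonempty 0
    · exact path_nonempty hj s
    · exact sp_nonempty 3
  · refine ext7_nonempty l b fun i => ?_
    fin_cases i
    · exact sp_nonempty 0
    · exact path_nonempty hk t
    · exact sp_nonempty 3
  · rintro e; rw [show p = (1, 1) from e] at hp; revert hp; decide
  · refine hlt.le.trans_eq (avg_congr fun x hx y hy => ?_)
    simp only [cset, Finset.mem_filter] at hx hy
    have hv : val (lineCls x) (lineCls y) = true := by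
      rw [hx.2, hy.2, val_core (not_tag_path _ _ _) (not_tag_path _ _ _), coreVal]
      have : (pathCls ℓ₀ k t).pop ≠ (pathCls ℓ₀ j s).pop.opp := hpq
      simp [this]
    simp only [flipped, hv]
    cases B x y <;> simp

/-- Paired classes of a path: at most a quarter changed, by induction down the path. -/
lemma Good.paired_le {B : Line D → Line D → Bool} (hB : NoCopy B) {ℓ₀ : Fin (2 ^ D)}
    (hG : Good B ℓ₀) : ∀ j, j ≤ D → ∀ s : Bool,
      dens B (pathCls ℓ₀ j s) (pathCls ℓ₀ j (!s)) ≤ 1 / 4 := by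
  intro j
  induction j with
  | zero => intro _ s; exact (hG.root s (!s)).trans (by norm_num)
  | succ j ih =>
    intro hj s
    have hj' : j < D := by omega
    by_contra hlt
    rw [not_le] at hlt
    have hd := nodeAt_succ_div hj' ℓ₀
    let l : Link D :=
      .inl (⟨j, hj'⟩, bitOf (nodeAt j ℓ₀), bitOf (nodeAt (j + 1) ℓ₀), s)
    let a : Fin 3 → Cls D := ![pathCls ℓ₀ j false, pathCls ℓ₀ (j + 1) s, pathCls ℓ₀ j true]
    let b : Fin 3 → Cls D := ![pathCls ℓ₀ j false, pathCls ℓ₀ (j + 1) (!s), pathCls ℓ₀ j true]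
    have ha : ∀ i, ¬ (a i).IsTag := by intro i; fin_cases i <;> exact id
    have hb : ∀ i, ¬ (b i).IsTag := by intro i; fin_cases i <;> exact id
    have pa : ∀ i, (a i).pop = rowRole l i := by intro i; fin_cases i <;> rfl
    have pb : ∀ i, (b i).pop = colRole l i := by intro i; fin_cases i <;> rfl
    have ia : Function.Injective (rowRole l) := by
      intro i i' h
      fin_cases i <;> fin_cases i' <;> simp [l, rowRole] at h ⊢
    have ib : Function.Injective (colRole l) := by
      intro i i' h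
      fin_cases i <;> fin_cases i' <;> simp [l, colRole] at h ⊢
    have hcore : ∀ i i', (i, i') ≠ (1, 1) → coreVal (a i) (b i') = true := by
      intro i i' h
      fin_cases i <;> fin_cases i' <;>
        first
          | exact absurd rfl h
          | simp [a, b, pathCls, coreVal, zeroNode, Cls.pop, Pop.opp]
    have cases7 : ∀ (a : Fin 3 → Cls D) (i : Fin 7),
        (∃ m, i = coreIdx m ∧ ext7 l a i = a m) ∨ ∃ g : Glob D, ext7 l a i = globCls g := by
      intro a i
      rcases idx_cases i with ⟨m, rfl⟩ | ⟨α, rfl⟩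
      · exact Or.inl ⟨m, rfl, ext7_core l a m⟩
      · exact Or.inr ⟨.inr (l, α), ext7_tag l a α⟩
    have small : ∀ p ∈ smallCells, dens B (ext7 l a p.1) (ext7 l b p.2) ≤ 1 / 500 := by
      intro p hp
      rcases cases7 a p.1 with ⟨m, e1, h1⟩ | ⟨g, h1⟩ <;>
        rcases cases7 b p.2 with ⟨m', e2, h2⟩ | ⟨g', h2⟩
      · rw [show p = (coreIdx m, coreIdx m') from Prod.ext e1 e2] at hp
        rw [h1, h2]
        fin_cases m <;> fin_cases m' <;>
          first
            | (exfalso; revert hp; decide)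
            | exact hG.local_le hB (by omega) (by omega) _ _ (by simp)
      · rw [h1, h2]
        fin_cases m <;> exact (hG.pg _ (by omega) _ g').trans (by norm_num)
      · rw [h1, h2]
        fin_cases m' <;> exact (hG.gp _ (by omega) _ g).trans (by norm_num)
      · rw [h1, h2]; exact (hG.gg g g').trans (by norm_num)
    refine noCopy_contra hB (ext7 l a) (ext7 l b)
      (ext7_strictMono l a ha (path_open_lt hj' s).1 (path_open_lt hj' s).2)
      (ext7_strictMono l b hb (path_open_lt hj' _).1 (path_open_lt hj' _).2) ?_ ?_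
      (val_ext7 l a b ha hb pa pb ia ib hcore)
      (η := 1 / 500) (θ := 1 / 4) small (ih (by omega) false) (ih (by omega) true)
      ?_ (by norm_num) (by norm_num)
    · refine ext7_nonempty l a fun i => ?_
      fin_cases i <;> exact path_nonempty (by omega) _
    · refine ext7_nonempty l b fun i => ?_
      fin_cases i <;> exact path_nonempty (by omega) _
    · refine hlt.le.trans_eq (avg_congr fun x hx y hy => ?_)
      simp only [cset, Finset.mem_filter] at hx hy
      have hv : val (lineCls x) (lineCls y) = true := by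
        rw [hx.2, hy.2, val_core (not_tag_path _ _ _) (not_tag_path _ _ _)]
        simp [pathCls, coreVal, zeroNode, Cls.pop, Pop.opp]
      simp only [flipped, hv]
      cases B x y <;> simp

/-- A good leaf yields a copy by the terminal link. -/
lemma Good.contra {B : Line D → Line D → Bool} (hB : NoCopy B) {ℓ₀ : Fin (2 ^ D)}
    (hG : Good B ℓ₀) : False := by
  let l : Link D := .inr (.inl (bitOf (nodeAt D ℓ₀)))
  let a : Fin 3 → Cls D := ![pathCls ℓ₀ D false, .sp 2, .sp 3]
  let b : Fin 3 → Cls D := ![.sp 0, .sp 1, pathCls ℓ₀ D true]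
  have ha : ∀ i, ¬ (a i).IsTag := by intro i; fin_cases i <;> exact id
  have hb : ∀ i, ¬ (b i).IsTag := by intro i; fin_cases i <;> exact id
  have pa : ∀ i, (a i).pop = rowRole l i := by intro i; fin_cases i <;> rfl
  have pb : ∀ i, (b i).pop = colRole l i := by intro i; fin_cases i <;> rfl
  have ia : Function.Injective (rowRole l) := by
    intro i i' h
    fin_cases i <;> fin_cases i' <;> simp [l, rowRole] at h ⊢
  have ib : Function.Injective (colRole l) := by
    intro i i' h
    fin_cases i <;> fin_cases i' <;> simp [l, colRole] at h ⊢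
  have hcore : ∀ i i', (i, i') ≠ (1, 1) → coreVal (a i) (b i') = true := by
    intro i i' h
    fin_cases i <;> fin_cases i' <;>
      first
        | exact absurd rfl h
        | simp [a, b, pathCls, coreVal, zeroNode, Cls.pop, Pop.opp, Fin.rev, Fin.ext_iff]
  have cases7 : ∀ (a : Fin 3 → Cls D) (i : Fin 7),
      (∃ m, i = coreIdx m ∧ ext7 l a i = a m) ∨ ∃ g : Glob D, ext7 l a i = globCls g := by
    intro a i
    rcases idx_cases i with ⟨m, rfl⟩ | ⟨α, rfl⟩
    · exact Or.inl ⟨m, rfl, ext7_core l a m⟩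
    · exact Or.inr ⟨.inr (l, α), ext7_tag l a α⟩
  have rowKind : ∀ i : Fin 7, i = 0 ∧ ext7 l a i = pathCls ℓ₀ D false ∨
      ∃ g : Glob D, ext7 l a i = globCls g := by
    intro i
    rcases cases7 a i with ⟨m, e, h⟩ | h
    · fin_cases m
      · exact Or.inl ⟨e, h⟩
      · exact Or.inr ⟨.inl 2, h⟩
      · exact Or.inr ⟨.inl 3, h⟩
    · exact Or.inr h
  have colKind : ∀ i : Fin 7, i = 2 ∧ ext7 l b i = pathCls ℓ₀ D true ∨
      ∃ g : Glob D, ext7 l b i = globCls g := by
    intro i
    rcases cases7 b i with ⟨m, e, h⟩ | h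
    · fin_cases m
      · exact Or.inr ⟨.inl 0, h⟩
      · exact Or.inr ⟨.inl 1, h⟩
      · exact Or.inl ⟨e, h⟩
    · exact Or.inr h
  have small : ∀ i j : Fin 7, ¬ (i = 0 ∧ j = 2) →
      dens B (ext7 l a i) (ext7 l b j) ≤ 1 / 50000 := by
    intro i j h
    rcases rowKind i with ⟨e1, h1⟩ | ⟨g, h1⟩ <;> rcases colKind j with ⟨e2, h2⟩ | ⟨g', h2⟩
    · exact absurd ⟨e1, e2⟩ h
    · rw [h1, h2]; exact hG.pg D le_rfl _ g'
    · rw [h1, h2]; exact hG.gp D le_rfl _ g
    · rw [h1, h2]; exact hG.gg g g'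
  refine noCopy_contra hB (ext7 l a) (ext7 l b) (ext7_strictMono l a ha ?_ ?_)
    (ext7_strictMono l b hb ?_ ?_) ?_ ?_ (val_ext7 l a b ha hb pa pb ia ib hcore)
    (η := 1 / 500) (θ := 1 / 2) (fun p hp => (small p.1 p.2 ?_).trans (by norm_num))
    (hG.paired_le hB D le_rfl false) ((small 2 0 (by decide)).trans (by norm_num))
    ?_ (by norm_num) (by norm_num)
  · simp [a, pathCls, pos, Prod.Lex.toLex_lt_toLex]
  · simp [a, pos, Prod.Lex.toLex_lt_toLex]
  · simp [b, pos, Prod.Lex.toLex_lt_toLex]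
  · simp [b, pathCls, pos, Prod.Lex.toLex_lt_toLex]
  · refine ext7_nonempty l a fun i => ?_
    fin_cases i
    · exact path_nonempty le_rfl _
    · exact sp_nonempty 2
    · exact sp_nonempty 3
  · refine ext7_nonempty l b fun i => ?_
    fin_cases i
    · exact sp_nonempty 0
    · exact sp_nonempty 1
    · exact path_nonempty le_rfl _
  · rintro ⟨e1, e2⟩
    rw [show p = (0, 2) from Prod.ext e1 e2] at hp
    revert hp; decide
  · have h := small 1 1 (by decide)
    have e : avg (cset (ext7 l a 1)) (cset (ext7 l b 1))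
        (fun x y => if B x y = false then 1 else 0) = 1 - dens B (ext7 l a 1) (ext7 l b 1) := by
      have hn1 : (cset (ext7 l a 1)).Nonempty := glob_nonempty (.inl 2)
      have hn2 : (cset (ext7 l b 1)).Nonempty := glob_nonempty (.inl 1)
      have hflip : ∀ x ∈ cset (ext7 l a 1), ∀ y ∈ cset (ext7 l b 1),
          (if B x y = false then (1 : ℝ) else 0) = 1 - flipped B x y := by
        intro x hx y hy
        simp only [cset, Finset.mem_filter] at hx hy
        have hv : val (lineCls x) (lineCls y) = false := by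
          rw [hx.2, hy.2]
          show coreVal (Cls.sp 2) (Cls.sp 1) = false
          simp [coreVal, zeroNode, Cls.pop, Pop.opp, Fin.rev, Fin.ext_iff]
        simp only [flipped, hv]
        split_ifs <;> simp
      rw [avg_congr hflip, dens, avg, avg]
      have h1 : ((cset (ext7 l a 1)).card : ℝ) ≠ 0 := by exact_mod_cast hn1.card_ne_zero
      have h2 : ((cset (ext7 l b 1)).card : ℝ) ≠ 0 := by exact_mod_cast hn2.card_ne_zero
      simp only [Finset.sum_sub_distrib, Finset.sum_const, nsmul_eq_mul, mul_one]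
      field_simp
    rw [e]; linarith

end Vale.Agent.P037
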