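import Vale.Agent.P037.Construction
import Mathlib.Data.Fintype.Pigeonhole

/-!
Every copy of the pattern in the host uses a row and a column at the same leaf: statement on the
level of classes.
-/

namespace Vale.Agent.P037

variable {D : ℕ}

/-- A copy of the pattern on the level of classes. -/
def ClsCopy (u w : Fin 7 → Cls D) : Prop :=
  Monotone (fun i => pos (u i)) ∧ Monotone (fun i => pos (w i)) ∧
    ∀ i j, val (u i) (w j) = H7 i j

lemma val_core {a b : Cls D} (ha : ¬ a.IsTag) (hb : ¬ b.IsTag) : val a b = coreVal a b := by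
  cases a <;> cases b <;> first | rfl | simp_all [Cls.IsTag]

lemma val_core_tag {a : Cls D} (ha : ¬ a.IsTag) (l : Link D) (α : Fin 4) :
    val a (.tag l α) = inc (rowRole l) a.pop α := by
  cases a <;> first | rfl | simp_all [Cls.IsTag]

lemma val_tag_core {a : Cls D} (ha : ¬ a.IsTag) (l : Link D) (α : Fin 4) :
    val (.tag l α) a = inc (colRole l) a.pop α := by
  cases a <;> first | rfl | simp_all [Cls.IsTag]

lemma exists_tag {a : Cls D} (h : a.IsTag) : ∃ l α, a = .tag l α := by
  cases a <;> simp_all [Cls.IsTag]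

/-- Core classes come before tag classes. -/
lemma tag_of_le {a b : Cls D} (h : pos a ≤ pos b) (ha : a.IsTag) : b.IsTag := by
  obtain ⟨l, α, rfl⟩ := exists_tag ha
  cases b with
  | tag l' β => trivial
  | sp i =>
    fin_cases i <;> simp [pos, Prod.Lex.toLex_le_toLex] at h
  | tr j v s =>
    simp [pos, Prod.Lex.toLex_le_toLex] at h

lemma alpha_le {l : Link D} {α β : Fin 4} (h : pos (Cls.tag l α) ≤ pos (Cls.tag l β)) : α ≤ β := by
  simpa [pos, Prod.Lex.toLex_le_toLex] using h

/-- An entry zero in the core × core region only occurs at paired populations. -/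
lemma pop_of_zero {a b : Cls D} (h : coreVal a b = false) : b.pop = a.pop.opp := by
  simp only [coreVal, Bool.not_eq_false', Bool.and_eq_true, decide_eq_true_eq] at h
  exact h.1

lemma pop_eq_tr {a : Cls D} (ha : ¬ a.IsTag) {j : ℕ} {e s : Bool} (h : a.pop = .tr j e s) :
    ∃ v, a = .tr j v s ∧ bitOf v = e := by
  cases a with
  | sp i => simp [Cls.pop] at h
  | tag l α => simp [Cls.IsTag] at ha
  | tr k v t =>
    simp only [Cls.pop, Pop.tr.injEq] at h
    obtain ⟨rfl, h2, rfl⟩ := h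
    exact ⟨v, rfl, h2⟩

lemma pop_eq_sp {a : Cls D} (ha : ¬ a.IsTag) {i : Fin 4} (h : a.pop = .sp i) : a = .sp i := by
  cases a with
  | sp i => simpa [Cls.pop] using h
  | tag l α => simp [Cls.IsTag] at ha
  | tr k v t => simp [Cls.pop] at h

/-- Two paired classes with entry one with a given one coincide. -/
lemma eq_of_one {a b b' : Cls D} (ha : ¬ a.IsTag) (hb : ¬ b.IsTag) (hb' : ¬ b'.IsTag)
    (h : b.pop = a.pop.opp) (h' : b'.pop = a.pop.opp) (h1 : coreVal a b = true)
    (h1' : coreVal a b' = true) : b = b' := by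
  cases a with
  | sp i => rw [pop_eq_sp hb h, pop_eq_sp hb' h']
  | tag l α => simp [Cls.IsTag] at ha
  | tr k v t =>
    obtain ⟨x, rfl, hx⟩ := pop_eq_tr hb h
    obtain ⟨y, rfl, hy⟩ := pop_eq_tr hb' h'
    simp only [Cls.pop, Pop.opp] at h h'
    simp [coreVal, zeroNode, Cls.pop, Pop.opp, hx, hy] at h1 h1'
    rw [← h1, ← h1']

lemma eq_of_one' {a b b' : Cls D} (ha : ¬ a.IsTag) (hb : ¬ b.IsTag) (hb' : ¬ b'.IsTag)
    (h : b.pop = a.pop.opp) (h' : b'.pop = a.pop.opp) (h1 : coreVal b a = true)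
    (h1' : coreVal b' a = true) : b = b' := by
  cases a with
  | sp i => rw [pop_eq_sp hb h, pop_eq_sp hb' h']
  | tag l α => simp [Cls.IsTag] at ha
  | tr k v t =>
    obtain ⟨x, rfl, hx⟩ := pop_eq_tr hb h
    obtain ⟨y, rfl, hy⟩ := pop_eq_tr hb' h'
    simp [coreVal, zeroNode, Cls.pop, Pop.opp, hx, hy] at h1 h1'
    rw [h1, h1']

section Split

variable {u w : Fin 7 → Cls D}

lemma H7_injective : ∀ i i' : Fin 7, H7 i = H7 i' → i = i' := by decide

lemma ClsCopy.inj_row (h : ClsCopy u w) {i i' : Fin 7} (e : u i = u i') : i = i' := by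
  have he : H7 i = H7 i' := funext fun j => by rw [← h.2.2 i j, ← h.2.2 i' j, e]
  exact H7_injective _ _ he

lemma ClsCopy.inj_col (h : ClsCopy u w) {i i' : Fin 7} (e : w i = w i') : i = i' := by
  have he : H7 i = H7 i' := funext fun j => by
    rw [H7_symm i, H7_symm i', ← h.2.2 j i, ← h.2.2 j i', e]
  exact H7_injective _ _ he

lemma ClsCopy.core_row (h : ClsCopy u w) {i i' : Fin 7} (hi : i' ≤ i) (hc : ¬ (u i).IsTag) :
    ¬ (u i').IsTag := fun ht => hc (tag_of_le (h.1 hi) ht)

lemma ClsCopy.core_col (h : ClsCopy u w) {i i' : Fin 7} (hi : i' ≤ i) (hc : ¬ (w i).IsTag) :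
    ¬ (w i').IsTag := fun ht => hc (tag_of_le (h.2.1 hi) ht)

/-- The fourth row and the third column cannot both be core lines. -/
lemma ClsCopy.not_row3_col2 (h : ClsCopy u w) (h3 : ¬ (u 3).IsTag) (h2 : ¬ (w 2).IsTag) :
    False := by
  have h1 := h.core_row (i' := 1) (by decide) h3
  have hc0 := h.core_col (i' := 0) (by decide) h2
  have hc1 := h.core_col (i' := 1) (by decide) h2
  have k : ∀ i j, ¬ (u i).IsTag → ¬ (w j).IsTag → coreVal (u i) (w j) = H7 i j := by
    intro i j a b; rw [← val_core a b]; exact h.2.2 i j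
  have e0 := pop_of_zero (k 3 0 h3 hc0)
  have e1 := pop_of_zero (k 3 1 h3 hc1)
  have e2 := pop_of_zero (k 3 2 h3 h2)
  have em := pop_of_zero (k 1 1 h1 hc1)
  have e02 : w 0 = w 2 :=
    eq_of_one h1 hc0 h2 (e0.trans (e1.symm.trans em)) (e2.trans (e1.symm.trans em))
      (k 1 0 h1 hc0) (k 1 2 h1 h2)
  exact absurd (h.inj_col e02) (by decide)

/-- The fourth column and the third row cannot both be core lines. -/
lemma ClsCopy.not_col3_row2 (h : ClsCopy u w) (h3 : ¬ (w 3).IsTag) (h2 : ¬ (u 2).IsTag) :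
    False := by
  have h1 := h.core_col (i' := 1) (by decide) h3
  have hc0 := h.core_row (i' := 0) (by decide) h2
  have hc1 := h.core_row (i' := 1) (by decide) h2
  have k : ∀ i j, ¬ (u i).IsTag → ¬ (w j).IsTag → coreVal (u i) (w j) = H7 i j := by
    intro i j a b; rw [← val_core a b]; exact h.2.2 i j
  have back : ∀ {a b : Cls D}, coreVal a b = false → a.pop = b.pop.opp := fun hh => by
    rw [pop_of_zero hh, Pop.opp_opp]
  have e0 := back (k 0 3 hc0 h3)
  have e1 := back (k 1 3 hc1 h3)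
  have e2 := back (k 2 3 h2 h3)
  have em := back (k 1 1 hc1 h1)
  have e02 : u 0 = u 2 :=
    eq_of_one' h1 hc0 h2 (e0.trans (e1.symm.trans em)) (e2.trans (e1.symm.trans em))
      (k 0 1 hc0 h1) (k 2 1 h2 h1)
  exact absurd (h.inj_row e02) (by decide)

lemma link_eq_of_val {l l' : Link D} {α β : Fin 4}
    (h : val (Cls.tag l α) (Cls.tag l' β) = true) : l = l' := by
  simp only [val, Bool.and_eq_true, decide_eq_true_eq] at h
  exact h.1

/-- If the last row is a tag line, then the third column is a core line. -/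
lemma ClsCopy.col2_core (h : ClsCopy u w) (h6 : (u 6).IsTag) : ¬ (w 2).IsTag := by
  intro h2
  obtain ⟨l, α, hl⟩ := exists_tag h6
  have hw : ∀ t : Fin 5, ∃ β, w ⟨2 + t.val, by omega⟩ = Cls.tag l β := by
    intro t
    have hle : (2 : Fin 7) ≤ ⟨2 + t.val, by omega⟩ := Fin.mk_le_mk.2 (Nat.le_add_right _ _)
    obtain ⟨l', β, hb⟩ := exists_tag (tag_of_le (h.2.1 hle) h2)
    refine ⟨β, ?_⟩
    have := h.2.2 6 ⟨2 + t.val, by omega⟩
    rw [hl, hb] at this
    have one : ∀ j : Fin 7, H7 6 j = true := by decide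
    rw [hb, link_eq_of_val (this.trans (one _))]
  choose β hβ using hw
  obtain ⟨s, t, hst, he⟩ := Fintype.exists_ne_map_eq_of_card_lt β (by simp)
  have := h.inj_col ((hβ s).trans ((congrArg (Cls.tag l) he).trans (hβ t).symm))
  exact hst (Fin.ext (by simpa [Fin.ext_iff] using this))

/-- If the last column is a tag line, then the third row is a core line. -/
lemma ClsCopy.row2_core (h : ClsCopy u w) (h6 : (w 6).IsTag) : ¬ (u 2).IsTag := by
  intro h2
  obtain ⟨l, α, hl⟩ := exists_tag h6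
  have hw : ∀ t : Fin 5, ∃ β, u ⟨2 + t.val, by omega⟩ = Cls.tag l β := by
    intro t
    have hle : (2 : Fin 7) ≤ ⟨2 + t.val, by omega⟩ := Fin.mk_le_mk.2 (Nat.le_add_right _ _)
    obtain ⟨l', β, hb⟩ := exists_tag (tag_of_le (h.1 hle) h2)
    refine ⟨β, ?_⟩
    have := h.2.2 ⟨2 + t.val, by omega⟩ 6
    rw [hl, hb] at this
    have one : ∀ j : Fin 7, H7 j 6 = true := by decide
    rw [hb, ← link_eq_of_val (this.trans (one _))]
  choose β hβ using hw
  obtain ⟨s, t, hst, he⟩ := Fintype.exists_ne_map_eq_of_card_lt β (by simp)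
  have := h.inj_row ((hβ s).trans ((congrArg (Cls.tag l) he).trans (hβ t).symm))
  exact hst (Fin.ext (by simpa [Fin.ext_iff] using this))

lemma inc_true {R : Fin 3 → Pop} {p : Pop} {α : Fin 4} (h : inc R p α = true) :
    p = R 0 ∨ p = R 1 ∨ p = R 2 := by
  unfold inc at h
  split_ifs at h <;> simp_all

lemma H7_sep : ∀ a b : Fin 4, a ≠ b →
    ¬ ∀ j : Fin 7, 2 ≤ j → H7 (Fin.castLE (by omega) a) j = H7 (Fin.castLE (by omega) b) j := by
  decide

/-- The rows cannot all be core lines while the third column is a tag line. -/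
lemma ClsCopy.not_all_rows (h : ClsCopy u w) (h6 : ¬ (u 6).IsTag) (h2 : (w 2).IsTag) : False := by
  have hr : ∀ i, ¬ (u i).IsTag := fun i => h.core_row (Fin.le_last i) h6
  have hw : ∀ j : Fin 7, 2 ≤ j → (w j).IsTag := fun j hj => tag_of_le (h.2.1 hj) h2
  obtain ⟨l, α, hl⟩ := exists_tag (hw 6 (by decide))
  have one : ∀ i : Fin 7, H7 i 6 = true := by decide
  have hm : ∀ i, ∃ t : Fin 3, (u i).pop = rowRole l t := by
    intro i
    have := h.2.2 i 6
    rw [hl, val_core_tag (hr i), one] at this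
    rcases inc_true this with e | e | e <;> exact ⟨_, e⟩
  choose t ht using hm
  obtain ⟨a, b, hab, he⟩ :=
    Fintype.exists_ne_map_eq_of_card_lt (fun i : Fin 4 => t ⟨i.val, by omega⟩) (by simp)
  have he' : (u ⟨a.val, by omega⟩).pop = (u ⟨b.val, by omega⟩).pop := by
    rw [ht, ht]; exact congrArg (rowRole l) he
  have key : ∀ j : Fin 7, 2 ≤ j → H7 ⟨a.val, by omega⟩ j = H7 ⟨b.val, by omega⟩ j := by
    intro j hj
    obtain ⟨l', β, hb⟩ := exists_tag (hw j hj)
    rw [← h.2.2, ← h.2.2, hb, val_core_tag (hr _), val_core_tag (hr _), he']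
  exact H7_sep a b hab key

/-- The columns cannot all be core lines while the third row is a tag line. -/
lemma ClsCopy.not_all_cols (h : ClsCopy u w) (h6 : ¬ (w 6).IsTag) (h2 : (u 2).IsTag) : False := by
  have hr : ∀ i, ¬ (w i).IsTag := fun i => h.core_col (Fin.le_last i) h6
  have hw : ∀ j : Fin 7, 2 ≤ j → (u j).IsTag := fun j hj => tag_of_le (h.1 hj) h2
  obtain ⟨l, α, hl⟩ := exists_tag (hw 6 (by decide))
  have one : ∀ i : Fin 7, H7 6 i = true := by decide
  have hm : ∀ i, ∃ t : Fin 3, (w i).pop = colRole l t := by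
    intro i
    have := h.2.2 6 i
    rw [hl, val_tag_core (hr i), one] at this
    rcases inc_true this with e | e | e <;> exact ⟨_, e⟩
  choose t ht using hm
  obtain ⟨a, b, hab, he⟩ :=
    Fintype.exists_ne_map_eq_of_card_lt (fun i : Fin 4 => t ⟨i.val, by omega⟩) (by simp)
  have he' : (w ⟨a.val, by omega⟩).pop = (w ⟨b.val, by omega⟩).pop := by
    rw [ht, ht]; exact congrArg (colRole l) he
  have key : ∀ j : Fin 7, 2 ≤ j → H7 j ⟨a.val, by omega⟩ = H7 j ⟨b.val, by omega⟩ := by
    intro j hj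
    obtain ⟨l', β, hb⟩ := exists_tag (hw j hj)
    rw [← h.2.2, ← h.2.2, hb, val_tag_core (hr _), val_tag_core (hr _), he']
  exact H7_sep a b hab fun j hj => by
    rw [H7_symm _ j, H7_symm _ j]; exact key j hj

/-- Exactly three rows and three columns of a copy are core lines. -/
lemma ClsCopy.split (h : ClsCopy u w) :
    ¬ (u 2).IsTag ∧ ¬ (w 2).IsTag ∧ (u 3).IsTag ∧ (w 3).IsTag := by
  have hu : (u 3).IsTag := by
    by_contra h3
    have h2 : (w 2).IsTag := by_contra fun h2 => h.not_row3_col2 h3 h2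
    have h6 : ¬ (u 6).IsTag := fun h6 => h.col2_core h6 h2
    exact h.not_all_rows h6 h2
  have hw : (w 3).IsTag := by
    by_contra h3
    have h2 : (u 2).IsTag := by_contra fun h2 => h.not_col3_row2 h3 h2
    have h6 : ¬ (w 6).IsTag := fun h6 => h.row2_core h6 h2
    exact h.not_all_cols h6 h2
  exact ⟨h.row2_core (tag_of_le (h.2.1 (by decide)) hw),
    h.col2_core (tag_of_le (h.1 (by decide)) hu), hu, hw⟩

lemma pop_eq_role {R : Fin 3 → Pop} {p : Pop} (i : Fin 3)
    (h : ∀ α, inc R p α = H7 (coreIdx i) (tagIdx α)) : p = R i := by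
  have rinj : ∀ k i : Fin 3,
      (∀ α, H7 (coreIdx k) (tagIdx α) = H7 (coreIdx i) (tagIdx α)) → k = i := by decide
  have rlast : ∀ i : Fin 3, H7 (coreIdx i) (tagIdx 3) = true := by decide
  have r0 : coreIdx 0 = 0 := rfl
  have r1 : coreIdx 1 = 1 := rfl
  have r2 : coreIdx 2 = 2 := rfl
  by_cases h0 : p = R 0
  · rw [← rinj 0 i fun α => by rw [r0, ← h α, inc, if_pos h0]]
    exact h0
  by_cases h1 : p = R 1
  · rw [← rinj 1 i fun α => by rw [r1, ← h α, inc, if_neg h0, if_pos h1]]
    exact h1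
  by_cases h2 : p = R 2
  · rw [← rinj 2 i fun α => by rw [r2, ← h α, inc, if_neg h0, if_neg h1, if_pos h2]]
    exact h2
  have := h 3
  rw [inc, if_neg h0, if_neg h1, if_neg h2, rlast] at this
  simp at this

/-- The core lines of a copy lie in the roles of one link. -/
lemma ClsCopy.roles (h : ClsCopy u w) : ∃ l : Link D,
    (∀ i : Fin 3, ¬ (u (coreIdx i)).IsTag ∧ ¬ (w (coreIdx i)).IsTag) ∧
    (∀ i, (u (coreIdx i)).pop = rowRole l i) ∧ ∀ i, (w (coreIdx i)).pop = colRole l i := by
  obtain ⟨hu2, hw2, hu3, hw3⟩ := h.split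
  have cle : ∀ i : Fin 3, coreIdx i ≤ (2 : Fin 7) := by decide
  have tle : ∀ α : Fin 4, (3 : Fin 7) ≤ tagIdx α := by decide
  have hu : ∀ α : Fin 4, (u (tagIdx α)).IsTag := fun α =>
    tag_of_le (h.1 (tle α)) hu3
  have hw : ∀ α : Fin 4, (w (tagIdx α)).IsTag := fun α =>
    tag_of_le (h.2.1 (tle α)) hw3
  have hucore : ∀ i : Fin 3, ¬ (u (coreIdx i)).IsTag := fun i =>
    h.core_row (cle i) hu2
  have hwcore : ∀ i : Fin 3, ¬ (w (coreIdx i)).IsTag := fun i =>
    h.core_col (cle i) hw2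
  choose lu au hau using fun α => exists_tag (hu α)
  choose lw aw haw using fun α => exists_tag (hw α)
  have o1 : ∀ α, H7 (tagIdx 3) (tagIdx α) = true := by decide
  have o2 : ∀ α, H7 (tagIdx α) (tagIdx 3) = true := by decide
  have e1 : ∀ α, lu α = lw 3 := fun α => by
    have := h.2.2 (tagIdx α) (tagIdx 3)
    rw [hau, haw] at this
    exact link_eq_of_val (this.trans (o2 α))
  have e2 : ∀ α, lu 3 = lw α := fun α => by
    have := h.2.2 (tagIdx 3) (tagIdx α)
    rw [hau, haw] at this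
    exact link_eq_of_val (this.trans (o1 α))
  have hau' : ∀ α, u (tagIdx α) = .tag (lw 3) (au α) := fun α => by rw [hau, e1]
  have haw' : ∀ α, w (tagIdx α) = .tag (lw 3) (aw α) := fun α => by rw [haw, ← e2, e1]
  have tinj : ∀ {a b : Fin 4}, tagIdx a = tagIdx b → a = b := by decide
  have tmono : ∀ {a b : Fin 4}, a ≤ b → tagIdx a ≤ tagIdx b := by decide
  have sm : ∀ f : Fin 4 → Fin 4, StrictMono f → ∀ a, f a = a := by
    intro f hf a
    have h01 : f 0 < f 1 := hf (by decide)
    have h12 : f 1 < f 2 := hf (by decide)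
    have h23 : f 2 < f 3 := hf (by decide)
    rw [Fin.lt_def] at h01 h12 h23
    have := (f 3).isLt
    apply Fin.ext
    fin_cases a <;> simp <;> omega
  have su : ∀ α, au α = α := sm au fun a b hab => by
    refine lt_of_le_of_ne (alpha_le (l := lw 3) ?_) fun e => hab.ne (tinj (h.inj_row ?_))
    · rw [← hau', ← hau']; exact h.1 (tmono hab.le)
    · rw [hau', hau', e]
  have sw : ∀ α, aw α = α := sm aw fun a b hab => by
    refine lt_of_le_of_ne (alpha_le (l := lw 3) ?_) fun e => hab.ne (tinj (h.inj_col ?_))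
    · rw [← haw', ← haw']; exact h.2.1 (tmono hab.le)
    · rw [haw', haw', e]
  refine ⟨lw 3, fun i => ⟨hucore i, hwcore i⟩, fun i => pop_eq_role i ?_,
    fun i => pop_eq_role i ?_⟩
  · intro α
    have := h.2.2 (coreIdx i) (tagIdx α)
    rwa [haw', sw, val_core_tag (hucore i)] at this
  · intro α
    have := h.2.2 (tagIdx α) (coreIdx i)
    rw [hau', su, val_tag_core (hwcore i), H7_symm] at this
    exact this

end Split

lemma pos_tr_open {j v : ℕ} :
    pos (Cls.tr (D := D) j v false) = toLex (2, toLex (v * 2 ^ (D - j), D + 2 + j)) := by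
  simp [pos]

lemma pos_tr_close {j v : ℕ} :
    pos (Cls.tr (D := D) j v true) = toLex (2, toLex ((v + 1) * 2 ^ (D - j), D + 1 - j)) := by
  simp [pos]

lemma le_of_open_close {j x x' : ℕ}
    (h : pos (Cls.tr (D := D) j x false) ≤ pos (Cls.tr (D := D) j x' true)) : x ≤ x' := by
  rw [pos_tr_open, pos_tr_close] at h
  simp [Prod.Lex.toLex_le_toLex] at h
  by_contra hc
  have : (x' + 1) * 2 ^ (D - j) ≤ x * 2 ^ (D - j) := Nat.mul_le_mul_right _ (by omega)
  rcases h with h | h <;> omega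

/-- A line of depth `j + 1` strictly inside a node of depth `j` belongs to a child of it. -/
lemma child_of_between {j x v : ℕ} {s : Bool} (hj : j < D)
    (h1 : pos (Cls.tr (D := D) j x false) ≤ pos (Cls.tr (D := D) (j + 1) v s))
    (h2 : pos (Cls.tr (D := D) (j + 1) v s) ≤ pos (Cls.tr (D := D) j x true)) : v / 2 = x := by
  have hp : 2 ^ (D - j) = 2 * 2 ^ (D - (j + 1)) := by
    rw [← pow_succ', show D - (j + 1) + 1 = D - j by omega]
  have hpos : 0 < 2 ^ (D - (j + 1)) := by positivity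
  rw [pos_tr_open] at h1
  rw [pos_tr_close] at h2
  by_contra hne
  rcases Nat.lt_or_ge v (2 * x) with hv | hv
  · have hm : (v + 1) * 2 ^ (D - (j + 1)) ≤ x * 2 ^ (D - j) := by
      rw [hp, ← mul_assoc]; exact Nat.mul_le_mul_right _ (by omega)
    cases s
    · rw [pos_tr_open] at h1
      simp [Prod.Lex.toLex_le_toLex] at h1
      rw [add_mul] at hm
      rcases h1 with h1 | h1 <;> omega
    · rw [pos_tr_close] at h1
      simp [Prod.Lex.toLex_le_toLex] at h1
      rcases h1 with h1 | h1 <;> omega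
  · have hv' : 2 * x + 2 ≤ v := by omega
    have hm : (x + 1) * 2 ^ (D - j) ≤ v * 2 ^ (D - (j + 1)) := by
      rw [hp, ← mul_assoc]; exact Nat.mul_le_mul_right _ (by omega)
    cases s
    · rw [pos_tr_open] at h2
      simp [Prod.Lex.toLex_le_toLex] at h2
      rcases h2 with h2 | h2 <;> omega
    · rw [pos_tr_close] at h2
      simp [Prod.Lex.toLex_le_toLex] at h2
      rw [add_mul] at h2
      rcases h2 with h2 | h2 <;> omega

/-- Every copy contains a row and a column at the same node of depth `D`. -/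
theorem ClsCopy.same_leaf {u w : Fin 7 → Cls D} (h : ClsCopy u w) :
    ∃ x, u 0 = .tr D x false ∧ w 2 = .tr D x true := by
  obtain ⟨l, hc, hu, hw⟩ := h.roles
  have kc : ∀ i k : Fin 3,
      coreVal (u (coreIdx i)) (w (coreIdx k)) = H7 (coreIdx i) (coreIdx k) := by
    intro i k; rw [← val_core (hc i).1 (hc k).2]; exact h.2.2 _ _
  have h02 : H7 (coreIdx 0) (coreIdx 2) = true := by decide
  have h20 : H7 (coreIdx 2) (coreIdx 0) = true := by decide
  have h11 : H7 (coreIdx 1) (coreIdx 1) = false := by decide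
  rcases l with ⟨j, e', e, s⟩ | e | ⟨p, q⟩
  · exfalso
    obtain ⟨x, hx, bx⟩ := pop_eq_tr (hc 0).1 (hu 0)
    obtain ⟨v, hv, bv⟩ := pop_eq_tr (hc 1).1 (hu 1)
    obtain ⟨x', hx', bx'⟩ := pop_eq_tr (hc 2).1 (hu 2)
    obtain ⟨y, hy, by0⟩ := pop_eq_tr (hc 0).2 (hw 0)
    obtain ⟨v', hv', bv'⟩ := pop_eq_tr (hc 1).2 (hw 1)
    obtain ⟨y', hy', by2⟩ := pop_eq_tr (hc 2).2 (hw 2)
    have k02 := (kc 0 2).trans h02
    have k20 := (kc 2 0).trans h20
    have k11 := (kc 1 1).trans h11
    rw [hx, hy'] at k02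
    rw [hx', hy] at k20
    rw [hv, hv'] at k11
    simp [coreVal, zeroNode, Cls.pop, Pop.opp, bx, by2] at k02
    simp [coreVal, zeroNode, Cls.pop, Pop.opp, bx', by0] at k20
    simp [coreVal, zeroNode, Cls.pop, Pop.opp, bv, bv'] at k11
    have m1 : x ≤ x' := le_of_open_close (D := D)
      (by rw [← hx, ← hx']; exact h.1 (by decide))
    have m2 : y ≤ y' := le_of_open_close (D := D)
      (by rw [← hy, ← hy']; exact h.2.1 (by decide))
    have e1 : x' = x := by omega
    have e2 : y = x := by omega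
    have e3 : y' = x := by omega
    subst x' y y'
    have c1 : v / 2 = x := child_of_between j.isLt
      (by rw [← hx, ← hv]; exact h.1 (by decide)) (by rw [← hx', ← hv]; exact h.1 (by decide))
    have c2 : v' / 2 = x := child_of_between j.isLt
      (by rw [← hy, ← hv']; exact h.2.1 (by decide))
      (by rw [← hy', ← hv']; exact h.2.1 (by decide))
    have hb : v % 2 = v' % 2 := by
      have hh : bitOf v = bitOf v' := bv.trans bv'.symm
      simp [bitOf] at hh
      omega
    omega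
  · obtain ⟨x, hx, bx⟩ := pop_eq_tr (hc 0).1 (hu 0)
    obtain ⟨y, hy, by2⟩ := pop_eq_tr (hc 2).2 (hw 2)
    have k02 := (kc 0 2).trans h02
    rw [hx, hy] at k02
    simp [coreVal, zeroNode, Cls.pop, Pop.opp, bx, by2] at k02
    exact ⟨x, hx, k02.symm ▸ hy⟩
  · exfalso
    have e := pop_of_zero ((kc 1 1).trans h11)
    rw [hu 1, hw 1] at e
    simp only [rowRole, colRole, Matrix.cons_val_one, Matrix.cons_val_zero] at e
    split_ifs at e with hq
    · exact Pop.opp_ne _ e.symm
    · exact hq e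

end Vale.Agent.P037
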